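import Vale.Agent.Lib.P040.TP.Gen.Sw.ColCount

namespace Vale.Agent.Lib.P040.TP.Gen.Sw

private theorem col_sel_one (xP xM : ℤ) : sel 1 xP xM = xP := if_pos rfl

private theorem col_sel_neg_one (xP xM : ℤ) : sel (-1) xP xM = xM := if_neg (by decide)

/-- The integer identity behind a column whose two vertices are joined on the same page. -/
private theorem col_arith_same (h g g' j s l σ σ' T X c : ℤ) (hg0 : 0 ≤ g)
    (hfar : g + h + 1 ≤ g') (hgj : g ≤ j) (hl0 : 0 ≤ l) (hlj : l ≤ j)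
    (hσ : σ = min h (max s (h - g))) (hσ' : σ' = min j (max l (g' - h - 1)))
    (hT : T = pp (X - (h - c))) (hX : X = s - c) :
    |2 * σ + 2 * σ' - 2 * h| + 4 * T - |2 * (σ - s)| = 2 * s - 2 * h + 2 * σ' := by
  unfold pp at hT
  simp only [abs_eq_max_neg]
  omega

/-- The clamp of the right vertex, in terms of positive parts. -/
private theorem col_clamp_right (h g s σ : ℤ) (hg0 : 0 ≤ g) (hσ : σ = min h (max s (h - g))) :
    pp (h - s - g) = pp (h - s) - (h - σ) ∧
      |2 * (σ - s)| = 2 * (pp (h - s) - (h - σ)) + 2 * pp (s - h) := by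
  unfold pp
  simp only [abs_eq_max_neg]
  omega

/-- The clamp of the left vertex, in terms of positive parts. -/
private theorem col_clamp_left (h g' j l lo σ' : ℤ) (hlo0 : 0 ≤ lo) (hL : lo + l = j)
    (hσ' : σ' = min j (max l (g' - h - 1))) :
    min lo (pp (j + h + 1 - g')) = j - σ' := by
  unfold pp
  omega

/-- The integer identity behind a column whose two vertices are joined on different pages. -/
private theorem col_arith_diff (h g g' j s l lo σ σ' T X c a N t : ℤ) (hg0 : 0 ≤ g)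
    (hlo0 : 0 ≤ lo) (hL : lo + l = j)
    (hσ : σ = min h (max s (h - g))) (hσ' : σ' = min j (max l (g' - h - 1)))
    (hT : T = min (pp (h - c - X - g))
      (pp (h - c - X) - min (a + (lo - a)) (pp (N - t))))
    (hX : X = s - c) (hNt : N - t = j + h + 1 - g') :
    |2 * σ - 2 * σ' - 2 * h + 2 * j| + 4 * T - |2 * (σ - s)|
      = 2 * (h - j - s) + 2 * σ' := by
  subst hX
  have e1 : h - c - (s - c) - g = h - s - g := by ring
  have e2 : h - c - (s - c) = h - s := by ring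
  have e3 : a + (lo - a) = lo := by ring
  obtain ⟨d1, d2⟩ := col_clamp_right h g s σ hg0 hσ
  have d3 := col_clamp_left h g' j l lo σ' hlo0 hL hσ'
  rw [e1, e2, e3, hNt, d1, d3] at hT
  rw [d2]
  clear hσ hσ' d1 d2 d3 e1 e2 e3 hNt hL
  unfold pp at hT ⊢
  simp only [abs_eq_max_neg]
  omega

/-- The crossings to the right of column `j`, in count form. -/
private theorem col_sum (h g' j : ℕ) (ε ε' : ℕ → ℤ) (hε : IsSign ε) (hjg : j < g')
    (hgn : g' ≤ 2 * h + 1) :
    ∑ k ∈ Finset.Ico (j + 1) g', (1 + ε k * ε' j)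
      = ((g' : ℤ) - j - 1) + ε' j * ((cntp (2 * h + 1) ε (j + 1) - cntm (2 * h + 1) ε (j + 1))
          - (cntp (2 * h + 1) ε g' - cntm (2 * h + 1) ε g')) := by
  have h0 : ∑ _k ∈ Finset.Ico (j + 1) g', (1 : ℤ) = (g' : ℤ) - j - 1 := by
    rw [Finset.sum_const, Nat.card_Ico, nsmul_eq_mul, mul_one]
    omega
  have h1 : ∑ k ∈ Finset.Ico (j + 1) g', ε k + ∑ k ∈ Finset.Ico g' (2 * h + 1), ε k
      = ∑ k ∈ Finset.Ico (j + 1) (2 * h + 1), ε k :=
    Finset.sum_Ico_consecutive (fun k => ε k) (by omega) hgn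
  have hS1 := cnt_sub (2 * h + 1) (j + 1) ε hε
  have hS2 := cnt_sub (2 * h + 1) g' ε hε
  rw [Finset.sum_add_distrib, h0, ← Finset.sum_mul, hS1, hS2, ← h1]
  ring

/-- The column term of the sweep at the column `m - 1 - j`, with the reversed sequences
evaluated. -/
private theorem col_tcol (g m j : ℕ) (ε ε' : ℕ → ℤ) (hε' : IsSign ε') (hgj : g ≤ j)
    (hjm : j < m) (N aP aM YP YM : ℤ) :
    tcol (m - g) (rev m ε') (rev m ε) g N aP aM YP YM (m - 1 - j)
      = if ε j = ε' j then pp (lc (rev m ε) (ε' j) (m - 1 - j) - sel (-(ε' j)) YP YM)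
        else min (pp (sel (ε' j) YP YM - lc (rev m ε) (-(ε' j)) (m - 1 - j) - g))
          (pp (sel (ε' j) YP YM - lc (rev m ε) (-(ε' j)) (m - 1 - j))
            - min (sel (-(ε' j)) aP aM + (lc ε' (-(ε' j)) j - lc ε' (-(ε' j)) g))
                (pp (N - ((m - 1 - j : ℕ) : ℤ)))) := by
  have hidx : m - 1 - (m - 1 - j) = j := by omega
  have hrt : rev m ε' (m - 1 - j) = ε' j := by
    unfold rev
    rw [hidx]
  have hre : rev m ε (m - 1 - j) = ε j := by
    unfold rev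
    rw [hidx]
  have hne : ¬ (ε' j = -(ε' j)) := by
    rcases hε' j with h | h <;> rw [h] <;> decide
  have hC : m - (m - g) = g := by omega
  have hT : m - (m - 1 - j) = j + 1 := by omega
  have hA : lc (rev m ε') (-(ε' j)) (m - g) - lc (rev m ε') (-(ε' j)) (m - 1 - j)
      = lc ε' (-(ε' j)) j - lc ε' (-(ε' j)) g := by
    rw [lc_rev m (m - g) (by omega) ε' (-(ε' j)), lc_rev m (m - 1 - j) (by omega) ε' (-(ε' j)),
      hC, hT, lc_succ, if_neg hne]
    ring
  unfold tcol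
  rw [hrt, hre, hA]

/-- Far pairs: the crossings to the right minus the agreement in a column `j` of the left part
of the middle zone, in terms of the column term of the sweep. -/
theorem col_id (h g g' m : ℕ) (ε ε' : ℕ → ℤ) (hε : IsSign ε) (hε' : IsSign ε')
    (hfar : g + h + 1 ≤ g') (hgn : g' ≤ 2 * h + 1) (hm : m ≤ h + 1) (j : ℕ) (hgj : g ≤ j)
    (hjm : j < m) :
    ∑ k ∈ Finset.Ico (j + 1) g', (1 + ε k * ε' j) - agree2 (2 * h + 1) g g' ε ε' j
      = 4 * tcol (m - g) (rev m ε') (rev m ε) g ((m : ℤ) + h - g') (lc ε' 1 g) (lc ε' (-1) g)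
            ((h : ℤ) - cntm (2 * h + 1) ε m) ((h : ℤ) - cntp (2 * h + 1) ε m) (m - 1 - j)
        + 2 * ((h : ℤ) - j)
        - 2 * sel (ε' j) (cntp (2 * h + 1) ε g') (cntm (2 * h + 1) ε g')
        + 2 * lc ε' (-(ε' j)) j
        - omega (2 * h + 1) (2 * h + 1 - g') (rev (2 * h + 1) ε') (2 * h + 1 - 1 - j)
        - |omega (2 * h + 1) g ε j| := by
  have hn : m ≤ 2 * h + 1 := by omega
  have hjh : j ≤ h := by omega
  have hjg' : j < g' := by omega
  have hg0 : (0 : ℤ) ≤ (g : ℤ) := Int.natCast_nonneg g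
  have hfarZ : (g : ℤ) + h + 1 ≤ g' := by exact_mod_cast hfar
  have hgjZ : (g : ℤ) ≤ j := by exact_mod_cast hgj
  have hNt : ((m : ℤ) + h - g') - ((m - 1 - j : ℕ) : ℤ) = (j : ℤ) + h + 1 - g' := by omega
  have hTm : m - (m - 1 - j) = j + 1 := by omega
  have hB1 := lc_rev_cntp (2 * h + 1) m (m - 1 - j) (by omega) hn ε
  have hB2 := lc_rev_cntm (2 * h + 1) m (m - 1 - j) (by omega) hn ε hε
  rw [hTm] at hB1 hB2
  have hF1 := cnt_add (2 * h + 1) (j + 1) (by omega) ε
  have hF3 := cnt_add (2 * h + 1) g' hgn ε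
  push_cast at hF1 hF3
  have hL := lc_add_sign ε' hε' j
  have hlp := lc_nonneg ε' 1 j
  have hlm := lc_nonneg ε' (-1) j
  have hlpj : lc ε' 1 j ≤ (j : ℤ) := by linarith
  have hlmj : lc ε' (-1) j ≤ (j : ℤ) := by linarith
  have hpr := prof_right_count h g j ε hε hgj hjh
  have hor := omega_right_count h g j ε hε hgj hjh
  have hpl := prof_left_count h g' j ε' hε' hjg' hgn hjh
  have hol := omega_left_count h g' j ε' hε' hjg' hgn hjh
  have hsum := col_sum h g' j ε ε' hε hjg' hgn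
  have htc := col_tcol g m j ε ε' hε' hgj hjm ((m : ℤ) + h - g') (lc ε' 1 g) (lc ε' (-1) g)
    ((h : ℤ) - cntm (2 * h + 1) ε m) ((h : ℤ) - cntp (2 * h + 1) ε m)
  have hag : agree2 (2 * h + 1) g g' ε ε' j
      = |prof (2 * h + 1) g ε j + prof (2 * h + 1) g' ε' j| := by
    unfold agree2
    rw [if_pos ⟨hgj, hjg'⟩]
  obtain ⟨σ, hσ⟩ : ∃ σ : ℤ, σ = min (h : ℤ)
      (max (sel (ε j) (cntp (2 * h + 1) ε (j + 1)) (cntm (2 * h + 1) ε (j + 1)))
        ((h : ℤ) - g)) := ⟨_, rfl⟩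
  rw [← hσ] at hpr hor
  obtain ⟨σ', hσ'⟩ : ∃ σ' : ℤ, σ' = min (j : ℤ)
      (max (lc ε' (ε' j) j) ((g' : ℤ) - h - 1)) := ⟨_, rfl⟩
  rw [← hσ'] at hpl hol
  obtain ⟨T, hT⟩ : ∃ T : ℤ, T = tcol (m - g) (rev m ε') (rev m ε) g ((m : ℤ) + h - g')
      (lc ε' 1 g) (lc ε' (-1) g) ((h : ℤ) - cntm (2 * h + 1) ε m)
      ((h : ℤ) - cntp (2 * h + 1) ε m) (m - 1 - j) := ⟨_, rfl⟩
  rw [← hT] at htc ⊢
  rw [hsum, hag, hpr, hpl, hor, hol]
  clear hpr hor hpl hol hsum hag hT hTm hn hjh hjg'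
  rcases hε j with he | he <;> rcases hε' j with he' | he'
  · rw [he] at hσ
    rw [he'] at hσ'
    rw [he, he', if_pos rfl] at htc
    simp only [col_sel_one, col_sel_neg_one] at hσ htc
    have key := col_arith_same _ _ _ _ _ _ _ _ _ _ _ hg0 hfarZ hgjZ hlp hlpj hσ hσ' htc hB1
    rw [he, he']
    simp only [col_sel_one]
    clear hσ hσ' htc hB1 hB2 hNt
    simp only [abs_eq_max_neg] at key ⊢
    omega
  · rw [he] at hσ
    rw [he'] at hσ'
    rw [he, he', if_neg (by decide)] at htc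
    simp only [col_sel_one, col_sel_neg_one, neg_neg] at hσ htc
    have key := col_arith_diff _ _ _ _ _ _ _ _ _ _ _ _ _ _ _ hg0 hlp hL hσ hσ' htc hB1 hNt
    rw [he, he']
    simp only [col_sel_one, col_sel_neg_one, neg_neg]
    clear hσ hσ' htc hB1 hB2 hNt
    simp only [abs_eq_max_neg] at key ⊢
    omega
  · rw [he] at hσ
    rw [he'] at hσ'
    rw [he, he', if_neg (by decide)] at htc
    simp only [col_sel_one, col_sel_neg_one] at hσ htc
    have key := col_arith_diff _ _ _ _ _ _ _ _ _ _ _ _ _ _ _ hg0 hlm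
      ((add_comm _ _).trans hL) hσ hσ' htc hB2 hNt
    rw [he, he']
    simp only [col_sel_one, col_sel_neg_one]
    clear hσ hσ' htc hB1 hB2 hNt
    simp only [abs_eq_max_neg] at key ⊢
    omega
  · rw [he] at hσ
    rw [he'] at hσ'
    rw [he, he', if_pos rfl] at htc
    simp only [col_sel_one, col_sel_neg_one, neg_neg] at hσ htc
    have key := col_arith_same _ _ _ _ _ _ _ _ _ _ _ hg0 hfarZ hgjZ hlm hlmj hσ hσ' htc hB2
    rw [he, he']
    simp only [col_sel_neg_one, neg_neg]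
    clear hσ hσ' htc hB1 hB2 hNt
    simp only [abs_eq_max_neg] at key ⊢
    omega

end Vale.Agent.Lib.P040.TP.Gen.Sw
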