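import Vale.Agent.Lib.P040.TP.Gen.Sw.Lc

/-! # Column profiles in count form, for columns in the left half of the spine -/

namespace Vale.Agent.Lib.P040.TP.Gen.Sw

/-- The sum of the signs left of a point, as a difference of two counts. -/
private lemma colCount_pre (f : ℕ → ℤ) (hf : IsSign f) (t : ℕ) :
    pre f t = lc f 1 t - lc f (-1) t := by
  unfold pre lc
  rw [← Finset.sum_sub_distrib]
  apply Finset.sum_congr rfl
  intro u _
  rcases hf u with h | h
  · rw [h]
    norm_num
  · rw [h]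
    norm_num

/-- Profile of a vertex in a column to its right, in the left half. -/
theorem prof_right_count (h g j : ℕ) (ε : ℕ → ℤ) (hε : IsSign ε) (hgj : g ≤ j) (hjh : j ≤ h) :
    prof (2 * h + 1) g ε j = ε j * (2 * min (h : ℤ)
      (max (sel (ε j) (cntp (2 * h + 1) ε (j + 1)) (cntm (2 * h + 1) ε (j + 1))) ((h : ℤ) - g))
        - (2 * (h : ℤ) - j)) := by
  have hmin : ∀ X : ℤ, min (h : ℤ) (min (2 * (h : ℤ) - j) X) = min (h : ℤ) X := by
    intro X
    omega
  unfold prof
  rw [phi_count h g j ε hε hgj (by omega), hmin]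
  rfl

/-- Clamp correction of a vertex in a column to its right, in the left half. -/
theorem omega_right_count (h g j : ℕ) (ε : ℕ → ℤ) (hε : IsSign ε) (hgj : g ≤ j) (hjh : j ≤ h) :
    omega (2 * h + 1) g ε j = 2 * (min (h : ℤ)
      (max (sel (ε j) (cntp (2 * h + 1) ε (j + 1)) (cntm (2 * h + 1) ε (j + 1))) ((h : ℤ) - g))
        - sel (ε j) (cntp (2 * h + 1) ε (j + 1)) (cntm (2 * h + 1) ε (j + 1))) := by
  have hmin : ∀ X : ℤ, min (h : ℤ) (min (2 * (h : ℤ) - j) X) = min (h : ℤ) X := by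
    intro X
    omega
  rw [omega_count h g j ε hε hgj (by omega), hmin]
  rfl

/-- Profile of a vertex in a column to its left, in the left half. -/
theorem prof_left_count (h g' j : ℕ) (ε' : ℕ → ℤ) (hε' : IsSign ε') (hj : j < g')
    (hg' : g' ≤ 2 * h + 1) (hjh : j ≤ h) :
    prof (2 * h + 1) g' ε' j = ε' j * (2 * min (j : ℤ)
      (max (lc ε' (ε' j) j) ((g' : ℤ) - h - 1)) - j) := by
  have _hg : g' ≤ 2 * h + 1 := hg'
  have hadd := lc_add_sign ε' hε' j
  have hpre := colCount_pre ε' hε' j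
  unfold prof phi
  rw [if_neg (by omega), dcol_left h j hjh, hpre]
  push_cast
  rcases hε' j with he | he
  · rw [he]
    simp only [one_mul]
    omega
  · rw [he]
    simp only [neg_mul, one_mul]
    omega

/-- Clamp correction of the reflected vertex in the reflected column. -/
theorem omega_left_count (h g' j : ℕ) (ε' : ℕ → ℤ) (hε' : IsSign ε') (hj : j < g')
    (hg' : g' ≤ 2 * h + 1) (hjh : j ≤ h) :
    omega (2 * h + 1) (2 * h + 1 - g') (rev (2 * h + 1) ε') (2 * h + 1 - 1 - j)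
      = 2 * (min (j : ℤ) (max (lc ε' (ε' j) j) ((g' : ℤ) - h - 1)) - lc ε' (ε' j) j) := by
  have hrev : rev (2 * h + 1) ε' (2 * h + 1 - 1 - j) = ε' j := by
    unfold rev
    congr 1
    omega
  have hk : 2 * h + 1 - (2 * h + 1 - 1 - j + 1) = j := by omega
  have hP := cntp_rev_lc (2 * h + 1) (2 * h + 1 - 1 - j + 1) (by omega) ε'
  have hM := cntm_rev_lc (2 * h + 1) (2 * h + 1 - 1 - j + 1) (by omega) ε' hε'
  rw [hk] at hP hM
  rw [omega_count h (2 * h + 1 - g') (2 * h + 1 - 1 - j) (rev (2 * h + 1) ε')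
    (rev_isSign _ _ hε') (by omega) (by omega), hrev, hP, hM]
  have hc1 : ((2 * h + 1 - 1 - j : ℕ) : ℤ) = 2 * (h : ℤ) - j := by omega
  have hc2 : ((2 * h + 1 - g' : ℕ) : ℤ) = 2 * (h : ℤ) + 1 - g' := by omega
  rw [hc1, hc2]
  rcases hε' j with he | he
  · rw [he]
    simp only [if_true]
    omega
  · rw [he]
    have hne : ¬ ((-1 : ℤ) = 1) := by decide
    simp only [hne, if_false]
    omega

end Vale.Agent.Lib.P040.TP.Gen.Sw
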