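import Vale.Agent.Lib.P040.TP.Gen.MirrorA
import Vale.Agent.Lib.P040.TP.Gen.Count

/-!
# Definitions for the column sweep (far straddling pairs)

`lc f s t` counts the indices `u < t` with `f u = s`. The abstract sweep works with two sign
sequences `p`, `e` on the columns `t = 0, ..., C-1` and integer data `G N aP aM YP YM`.
-/

namespace Vale.Agent.Lib.P040.TP.Gen.Sw

/-- Number of indices `u < t` with `f u = s`. -/
def lc (f : ℕ → ℤ) (s : ℤ) (t : ℕ) : ℤ := ∑ u ∈ Finset.range t, if f u = s then 1 else 0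

/-- Selection by sign: `xP` for the sign `1`, `xM` otherwise. -/
def sel (s xP xM : ℤ) : ℤ := if s = 1 then xP else xM

/-- Positive part. -/
def pp (x : ℤ) : ℤ := max x 0

/-- The correction term of the sweep. -/
def kap (N a x Y k : ℤ) : ℤ := pp (min (k + a + x) N - max Y (k + x))

/-- The column term of the sweep. -/
def tcol (C : ℕ) (p e : ℕ → ℤ) (G N aP aM YP YM : ℤ) (t : ℕ) : ℤ :=
  if e t = p t then pp (lc e (p t) t - sel (-(p t)) YP YM)
  else min (pp (sel (p t) YP YM - lc e (-(p t)) t - G))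
    (pp (sel (p t) YP YM - lc e (-(p t)) t)
      - min (sel (-(p t)) aP aM + (lc p (-(p t)) C - lc p (-(p t)) t)) (pp (N - t)))

/-- The column term of the sweep, corrected. -/
def colval (C : ℕ) (p e : ℕ → ℤ) (G N aP aM YP YM : ℤ) (t : ℕ) : ℤ :=
  tcol C p e G N aP aM YP YM t - pp (lc p (p t) t - sel (-(p t)) YP YM)
    + kap N (sel (-(p t)) aP aM) (lc p (-(p t)) C) (sel (p t) YP YM) (lc p (p t) t)

end Vale.Agent.Lib.P040.TP.Gen.Sw
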