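import Vale.Agent.Lib.P040.TP.Gen.Sw.Lc

namespace Vale.Agent.Lib.P040.TP.Gen.Sw

/-- Exchange of the two summations over a triangle. -/
private theorem mid_triangle (g m : ℕ) (F : ℕ → ℕ → ℤ) :
    ∑ k ∈ Finset.Ico g m, ∑ l ∈ Finset.Ico g k, F k l
      = ∑ l ∈ Finset.Ico g m, ∑ k ∈ Finset.Ico (l + 1) m, F k l := by
  refine Finset.sum_comm' (fun k l => ?_)
  simp only [Finset.mem_Ico]
  omega

/-- The crossings inside the middle zone, split at a column `m`. -/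
theorem mid_split (g g' m : ℕ) (hgm : g ≤ m) (hmg : m ≤ g') (ε ε' : ℕ → ℤ) :
    ∑ k ∈ Finset.Ico g g', ∑ l ∈ Finset.Ico g k, (1 + ε k * ε' l)
      = ∑ j ∈ Finset.Ico g m, ∑ k ∈ Finset.Ico (j + 1) g', (1 + ε k * ε' j)
        + ∑ j ∈ Finset.Ico m g', ∑ l ∈ Finset.Ico g j, (1 + ε j * ε' l)
        - ∑ l ∈ Finset.Ico g m, ∑ k ∈ Finset.Ico m g', (1 + ε k * ε' l) := by
  have h1 : ∑ k ∈ Finset.Ico g g', ∑ l ∈ Finset.Ico g k, (1 + ε k * ε' l)
      = ∑ k ∈ Finset.Ico g m, ∑ l ∈ Finset.Ico g k, (1 + ε k * ε' l)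
        + ∑ k ∈ Finset.Ico m g', ∑ l ∈ Finset.Ico g k, (1 + ε k * ε' l) :=
    (Finset.sum_Ico_consecutive _ hgm hmg).symm
  have h2 : ∑ j ∈ Finset.Ico g m, ∑ k ∈ Finset.Ico (j + 1) g', (1 + ε k * ε' j)
      = ∑ j ∈ Finset.Ico g m, ∑ k ∈ Finset.Ico (j + 1) m, (1 + ε k * ε' j)
        + ∑ j ∈ Finset.Ico g m, ∑ k ∈ Finset.Ico m g', (1 + ε k * ε' j) := by
    rw [← Finset.sum_add_distrib]
    refine Finset.sum_congr rfl (fun j hj => ?_)
    have hj' : j + 1 ≤ m := (Finset.mem_Ico.mp hj).2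
    exact (Finset.sum_Ico_consecutive _ hj' hmg).symm
  rw [h1, h2, mid_triangle g m (fun k l => 1 + ε k * ε' l)]
  ring

/-- Pointwise form of the rectangle count for two signs. -/
private theorem mid_pointwise (a b : ℤ) (ha : a = 1 ∨ a = -1) (hb : b = 1 ∨ b = -1) :
    1 + a * b = 2 * ((if b = 1 then 1 else 0) * (if a = 1 then 1 else 0)
      + (if b = -1 then 1 else 0) * (if a = 1 then 0 else 1)) := by
  rcases ha with ha | ha <;> rcases hb with hb | hb <;> subst ha <;> subst hb <;> norm_num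

/-- The rectangle count over two finite index sets. -/
private theorem mid_rect (A B : Finset ℕ) (ε ε' : ℕ → ℤ) (hε : IsSign ε) (hε' : IsSign ε') :
    ∑ l ∈ A, ∑ k ∈ B, (1 + ε k * ε' l)
      = 2 * ((∑ l ∈ A, if ε' l = 1 then 1 else 0) * (∑ k ∈ B, if ε k = 1 then 1 else 0)
        + (∑ l ∈ A, if ε' l = -1 then 1 else 0) * (∑ k ∈ B, if ε k = 1 then 0 else 1)) := by
  rw [Finset.sum_mul_sum, Finset.sum_mul_sum, ← Finset.sum_add_distrib, Finset.mul_sum]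
  refine Finset.sum_congr rfl (fun l _ => ?_)
  rw [← Finset.sum_add_distrib, Finset.mul_sum]
  refine Finset.sum_congr rfl (fun k _ => ?_)
  exact mid_pointwise (ε k) (ε' l) (hε k) (hε' l)

private theorem mid_lc_diff (f : ℕ → ℤ) (s : ℤ) (g m : ℕ) (h : g ≤ m) :
    lc f s m - lc f s g = ∑ u ∈ Finset.Ico g m, if f u = s then 1 else 0 := by
  unfold lc
  rw [Finset.sum_Ico_eq_sub _ h]

private theorem mid_cntp_diff (n m g' : ℕ) (hmg : m ≤ g') (hgn : g' ≤ n) (ε : ℕ → ℤ) :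
    cntp n ε m - cntp n ε g' = ∑ k ∈ Finset.Ico m g', if ε k = 1 then 1 else 0 := by
  unfold cntp
  rw [← Finset.sum_Ico_consecutive _ hmg hgn]
  ring

private theorem mid_cntm_diff (n m g' : ℕ) (hmg : m ≤ g') (hgn : g' ≤ n) (ε : ℕ → ℤ) :
    cntm n ε m - cntm n ε g' = ∑ k ∈ Finset.Ico m g', if ε k = 1 then 0 else 1 := by
  unfold cntm
  rw [← Finset.sum_Ico_consecutive _ hmg hgn]
  ring

/-- The crossings between the two parts of the middle zone, in count form. -/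
theorem crx_count (n g g' m : ℕ) (hgm : g ≤ m) (hmg : m ≤ g') (hgn : g' ≤ n) (ε ε' : ℕ → ℤ)
    (hε : IsSign ε) (hε' : IsSign ε') :
    ∑ l ∈ Finset.Ico g m, ∑ k ∈ Finset.Ico m g', (1 + ε k * ε' l)
      = 2 * ((lc ε' 1 m - lc ε' 1 g) * (cntp n ε m - cntp n ε g')
        + (lc ε' (-1) m - lc ε' (-1) g) * (cntm n ε m - cntm n ε g')) := by
  rw [mid_lc_diff ε' 1 g m hgm, mid_lc_diff ε' (-1) g m hgm, mid_cntp_diff n m g' hmg hgn ε,
    mid_cntm_diff n m g' hmg hgn ε]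
  exact mid_rect _ _ ε ε' hε hε'

/-- The crossings between the two outer zones, in count form. -/
theorem crX_count (n g g' : ℕ) (hgn : g' ≤ n) (ε ε' : ℕ → ℤ) (hε : IsSign ε) (hε' : IsSign ε') :
    ∑ k ∈ Finset.Ico g' n, ∑ l ∈ Finset.range g, (1 + ε k * ε' l)
      = 2 * (lc ε' 1 g * cntp n ε g' + lc ε' (-1) g * cntm n ε g') := by
  have _h := hgn
  rw [Finset.sum_comm]
  unfold lc cntp cntm
  exact mid_rect _ _ ε ε' hε hε'

end Vale.Agent.Lib.P040.TP.Gen.Sw
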