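import Vale.Agent.Lib.P040.TP.Gen.Sw.Defs

namespace Vale.Agent.Lib.P040.TP.Gen.Sw

private lemma ndc_RR_of_nonneg {z : ℤ} (h : 0 ≤ z) : RR z = z * (z - 1) := by
  unfold RR
  rw [max_eq_left h]

private lemma ndc_RR_of_nonpos {z : ℤ} (h : z ≤ 0) : RR z = 0 := by
  unfold RR
  rw [max_eq_right h]
  ring

private lemma ndc_RR_nonneg (z : ℤ) : 0 ≤ RR z := by
  rcases le_total z 0 with h | h
  · rw [ndc_RR_of_nonpos h]
  · rw [ndc_RR_of_nonneg h]
    rcases (by omega : z = 0 ∨ 1 ≤ z) with h0 | h1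
    · rw [h0]
      norm_num
    · exact mul_nonneg h (by omega)

private lemma ndc_RR_step (z : ℤ) : RR (z + 1) - RR z = 2 * pp z := by
  rcases le_or_gt 0 z with h | h
  · rw [ndc_RR_of_nonneg (by omega : (0 : ℤ) ≤ z + 1), ndc_RR_of_nonneg h]
    have hp : pp z = z := by
      unfold pp
      omega
    rw [hp]
    ring
  · rw [ndc_RR_of_nonpos (by omega : z + 1 ≤ 0), ndc_RR_of_nonpos (by omega : z ≤ 0)]
    have hp : pp z = 0 := by
      unfold pp
      omega
    rw [hp]
    ring

/-- Closed form of the number of non-deep cells of an `a × c` rectangle. -/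
private lemma ndc_closed (a : ℕ) (c D : ℤ) (hc : 0 ≤ c) :
    2 * ∑ i ∈ Finset.range a, pp (c - pp (D - 1 - i))
      = 2 * (a : ℤ) * c - RR D + RR (D - a) + RR (D - c) - RR (D - a - c) := by
  induction a with
  | zero => simp
  | succ n ih =>
    rw [Finset.sum_range_succ, mul_add, ih]
    push_cast
    have h1 := ndc_RR_step (D - ((n : ℤ) + 1))
    have h2 := ndc_RR_step (D - ((n : ℤ) + 1) - c)
    have e1 : D - ((n : ℤ) + 1) + 1 = D - n := by ring
    have e2 : D - ((n : ℤ) + 1) - c + 1 = D - n - c := by ring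
    rw [e1] at h1
    rw [e2] at h2
    have h3 : pp (c - pp (D - 1 - n))
        = c - pp (D - ((n : ℤ) + 1)) + pp (D - ((n : ℤ) + 1) - c) := by
      unfold pp
      omega
    rw [h3]
    linarith

private lemma ndc_reflect (a : ℕ) (J D : ℤ) :
    ∑ i ∈ Finset.range a, pp (J - pp (D - a + i))
      = ∑ i ∈ Finset.range a, pp (J - pp (D - 1 - i)) := by
  rw [← Finset.sum_range_reflect (fun i => pp (J - pp (D - 1 - (i : ℤ)))) a]
  refine Finset.sum_congr rfl (fun i hi => ?_)
  have hi' := Finset.mem_range.1 hi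
  have e : ((a - 1 - i : ℕ) : ℤ) = (a : ℤ) - 1 - i := by omega
  show pp (J - pp (D - a + i)) = pp (J - pp (D - 1 - ((a - 1 - i : ℕ) : ℤ)))
  rw [e]
  have e2 : D - (a : ℤ) + i = D - 1 - ((a : ℤ) - 1 - i) := by ring
  rw [e2]

/-- Two disjoint strips of the non-deep part of an `a × c` rectangle. -/
theorem nd_count (a c : ℕ) (I J D : ℤ) (hI : I ≤ a) (hJ : J ≤ c) (hIJ : I + J ≤ D - 1) :
    2 * ∑ i ∈ Finset.range a, pp (J - pp (D - a + i))
        + 2 * ∑ j ∈ Finset.range c, pp (I - pp (D - c + j))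
      ≤ 2 * (a : ℤ) * c - RR D + RR (D - a) + RR (D - c) := by
  rw [ndc_reflect a J D, ndc_reflect c I D]
  have hRa := ndc_RR_nonneg (D - a - c)
  rcases le_or_gt I 0 with hI0 | hI0
  · have hB : ∑ j ∈ Finset.range c, pp (I - pp (D - 1 - j)) = 0 :=
      Finset.sum_eq_zero (fun j _ => by unfold pp; omega)
    have hA : ∑ i ∈ Finset.range a, pp (J - pp (D - 1 - i))
        ≤ ∑ i ∈ Finset.range a, pp ((c : ℤ) - pp (D - 1 - i)) :=
      Finset.sum_le_sum (fun i _ => by unfold pp; omega)
    have hcl := ndc_closed a c D (Int.natCast_nonneg c)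
    linarith
  · rcases le_or_gt J 0 with hJ0 | hJ0
    · have hA : ∑ i ∈ Finset.range a, pp (J - pp (D - 1 - i)) = 0 :=
        Finset.sum_eq_zero (fun i _ => by unfold pp; omega)
      have hB : ∑ j ∈ Finset.range c, pp (I - pp (D - 1 - j))
          ≤ ∑ j ∈ Finset.range c, pp ((a : ℤ) - pp (D - 1 - j)) :=
        Finset.sum_le_sum (fun j _ => by unfold pp; omega)
      have hcl := ndc_closed c a D (Int.natCast_nonneg a)
      have hRa' : RR (D - c - a) = RR (D - a - c) := by
        have e : D - (c : ℤ) - a = D - a - c := by ring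
        rw [e]
      rw [hRa'] at hcl
      linarith
    · have hA := ndc_closed a J D hJ0.le
      have hB := ndc_closed c I D hI0.le
      obtain ⟨α, hα⟩ : ∃ α : ℕ, (α : ℤ) = a - I := ⟨((a : ℤ) - I).toNat, by omega⟩
      have hC := ndc_closed α (c - J) (D - I - J) (by omega)
      have hCnn : 0 ≤ ∑ i ∈ Finset.range α, pp ((c : ℤ) - J - pp (D - I - J - 1 - i)) :=
        Finset.sum_nonneg (fun i _ => by unfold pp; omega)
      rw [hα] at hC
      have e1 : RR D = D * (D - 1) := ndc_RR_of_nonneg (by omega)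
      have e2 : RR (D - J) = (D - J) * (D - J - 1) := ndc_RR_of_nonneg (by omega)
      have e3 : RR (D - I) = (D - I) * (D - I - 1) := ndc_RR_of_nonneg (by omega)
      have e4 : RR (D - I - J) = (D - I - J) * (D - I - J - 1) := ndc_RR_of_nonneg (by omega)
      have e5 : RR (D - I - J - ((a : ℤ) - I)) = RR (D - a - J) := by
        have e : D - I - J - ((a : ℤ) - I) = D - a - J := by ring
        rw [e]
      have e6 : RR (D - I - J - ((c : ℤ) - J)) = RR (D - c - I) := by
        have e : D - I - J - ((c : ℤ) - J) = D - c - I := by ring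
        rw [e]
      have e7 := ndc_RR_nonneg (D - I - J - ((a : ℤ) - I) - ((c : ℤ) - J))
      rw [e5, e6, e4] at hC
      rw [e1, e2] at hA
      rw [e1, e3] at hB
      linarith

end Vale.Agent.Lib.P040.TP.Gen.Sw
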