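import Vale.Agent.Lib.P040.TP.Gen.Sw.Right
import Vale.Agent.Lib.P040.TP.Gen.Sw.Mid
import Vale.Agent.Lib.P040.TP.Gen.Sw.NDCount

namespace Vale.Agent.Lib.P040.TP.Gen.Sw

/-- Two integers with sum one: the sum of the two `RR` values. -/
private lemma far_mid_rr (a b : ℤ) (hab : a + b = 1) : RR a + RR b = -(a * b) := by
  unfold RR
  rcases le_or_gt 1 a with h1 | h1
  · have e1 : max a 0 = a := max_eq_left (by linarith)
    have e2 : max b 0 = 0 := max_eq_right (by linarith)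
    have e3 : b = 1 - a := by linarith
    rw [e1, e2, e3]
    ring
  · have e1 : max a 0 = 0 := max_eq_right (by linarith)
    have e2 : max b 0 = b := max_eq_left (by linarith)
    have e3 : a = 1 - b := by linarith
    rw [e1, e2, e3]
    ring

/-- The final arithmetic: all sums and all values of `RR` are opaque integers. -/
private lemma far_mid_arith (aP aM xP xM cP cM yP yM g h g' mm : ℤ)
    (RA1 RA2 RB1 RB2 RC1 RC2 RD1 RD2 RDP RDM KLP KLM KRP KRM SL AL SR AR Atot crM crx crX : ℤ)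
    (hmm : mm = h + 1)
    (hs1 : aP + aM = g) (hs2 : aP + xP + (aM + xM) = h + 1)
    (hs3 : cP + cM = 2 * h + 1 - g') (hs4 : cP + yP + (cM + yM) = h)
    (hL : 2 * (RA1 + RA2) - 4 * (KLP + KLM)
        + ((h - g) * (h - g + 1) - (h - mm) * (h - mm + 1))
        - 2 * (xP * cP + xM * cM)
        + 2 * ((aP + xP) * (aM + xM) - aP * aM)
        - ((g' - h - 1) * (g' - h) - RB1 - RB2 - 2 * (aP * aM))
        - (RC1 + RC2) ≤ SL - AL)
    (hR : 2 * (RD1 + RD2) - 4 * (KRP + KRM)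
        + (g' - h - 1) * (g' - h)
        - 2 * (yP * aP + yM * aM)
        + 2 * ((cP + yP) * (cM + yM) - cP * cM)
        - ((h - g) * (h + 1 - g) - RC1 - RC2 - 2 * (cP * cM))
        - (RB1 + RB2) ≤ SR - AR)
    (hndP : 2 * KLP + 2 * KRP ≤ 2 * aP * cP - RDP + RA1 + RD1)
    (hndM : 2 * KLM + 2 * KRM ≤ 2 * aM * cM - RDM + RA2 + RD2)
    (hRR : RDP + RDM = -((aP + xP + cP + yP - h) * (aM + xM + cM + yM - h)))
    (hA : Atot = AL + AR)
    (hsplit : crM = SL + SR - crx)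
    (hcrx : crx = 2 * ((aP + xP - aP) * (cP + yP - cP) + (aM + xM - aM) * (cM + yM - cM)))
    (hcrX : crX = 2 * (aP * cP + aM * cM)) :
    Atot ≤ crM + crX := by
  subst hmm
  subst hs1
  obtain rfl : h = aP + xP + (aM + xM) - 1 := by linarith
  obtain rfl : cM = aP + xP + (aM + xM) - 1 - cP - yP - yM := by linarith
  obtain rfl : g' = 2 * (aP + xP + (aM + xM) - 1) + 1 - cP
      - (aP + xP + (aM + xM) - 1 - cP - yP - yM) := by linarith
  subst hA hsplit hcrx hcrX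
  linarith

/-- Far pairs: the two-star inequality restricted to the columns between the two vertices. -/
theorem far_mid_sw (h g g' : ℕ) (ε ε' : ℕ → ℤ) (hε : IsSign ε) (hε' : IsSign ε')
    (hfar : g + h + 1 ≤ g') (hgn : g' ≤ 2 * h + 1) :
    ∑ j ∈ Finset.Ico g g', |prof (2 * h + 1) g ε j + prof (2 * h + 1) g' ε' j|
      ≤ ∑ k ∈ Finset.Ico g g', ∑ l ∈ Finset.Ico g k, (1 + ε k * ε' l)
        + ∑ k ∈ Finset.Ico g' (2 * h + 1), ∑ l ∈ Finset.range g, (1 + ε k * ε' l) := by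
  have hgm : g ≤ h + 1 := by omega
  have hmg : h + 1 ≤ g' := by omega
  have hmn : h + 1 ≤ 2 * h + 1 := by omega
  -- the absolute values are the agreements
  have hagree : ∀ j ∈ Finset.Ico g g',
      |prof (2 * h + 1) g ε j + prof (2 * h + 1) g' ε' j| = agree2 (2 * h + 1) g g' ε ε' j := by
    intro j hj
    rw [Finset.mem_Ico] at hj
    unfold agree2
    rw [if_pos ⟨hj.1, hj.2⟩]
  rw [Finset.sum_congr rfl hagree]
  -- the eight counts
  obtain ⟨aP, haP⟩ := Int.eq_ofNat_of_zero_le (lc_nonneg ε' 1 g)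
  obtain ⟨aM, haM⟩ := Int.eq_ofNat_of_zero_le (lc_nonneg ε' (-1) g)
  obtain ⟨xP, hxP0⟩ := Int.eq_ofNat_of_zero_le
    (sub_nonneg.mpr (lc_mono ε' 1 g (h + 1) hgm))
  obtain ⟨xM, hxM0⟩ := Int.eq_ofNat_of_zero_le
    (sub_nonneg.mpr (lc_mono ε' (-1) g (h + 1) hgm))
  obtain ⟨cP, hcP⟩ := Int.eq_ofNat_of_zero_le (cntp_nonneg (2 * h + 1) g' ε)
  obtain ⟨cM, hcM⟩ := Int.eq_ofNat_of_zero_le (cntm_nonneg (2 * h + 1) g' ε)
  have hy1 : 0 ≤ cntp (2 * h + 1) ε (h + 1) - cntp (2 * h + 1) ε g' := by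
    rw [lc_cntp (2 * h + 1) (h + 1) hmn ε, lc_cntp (2 * h + 1) g' hgn ε]
    have h1 := lc_mono ε 1 (h + 1) g' hmg
    linarith
  have hy2 : 0 ≤ cntm (2 * h + 1) ε (h + 1) - cntm (2 * h + 1) ε g' := by
    rw [lc_cntm (2 * h + 1) (h + 1) hmn ε hε, lc_cntm (2 * h + 1) g' hgn ε hε]
    have h1 := lc_mono ε (-1) (h + 1) g' hmg
    linarith
  obtain ⟨yP, hyP0⟩ := Int.eq_ofNat_of_zero_le hy1
  obtain ⟨yM, hyM0⟩ := Int.eq_ofNat_of_zero_le hy2
  have hxP : lc ε' 1 (h + 1) = (aP : ℤ) + xP := by linarith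
  have hxM : lc ε' (-1) (h + 1) = (aM : ℤ) + xM := by linarith
  have hyP : cntp (2 * h + 1) ε (h + 1) = (cP : ℤ) + yP := by linarith
  have hyM : cntm (2 * h + 1) ε (h + 1) = (cM : ℤ) + yM := by linarith
  -- linear relations
  have hs1 : (aP : ℤ) + aM = g := by
    have h1 := lc_add_sign ε' hε' g
    linarith
  have hs2 : (aP : ℤ) + xP + ((aM : ℤ) + xM) = (h : ℤ) + 1 := by
    have h1 := lc_add_sign ε' hε' (h + 1)
    push_cast at h1
    linarith
  have hs3 : (cP : ℤ) + cM = 2 * (h : ℤ) + 1 - g' := by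
    have h1 := cnt_add (2 * h + 1) g' hgn ε
    push_cast at h1
    linarith
  have hs4 : (cP : ℤ) + yP + ((cM : ℤ) + yM) = (h : ℤ) := by
    have h1 := cnt_add (2 * h + 1) (h + 1) hmn ε
    push_cast at h1
    linarith
  have hmm : (((h + 1 : ℕ)) : ℤ) = (h : ℤ) + 1 := by push_cast; ring
  -- the ingredients
  have hsplit := mid_split g g' (h + 1) hgm hmg ε ε'
  have hcrx := crx_count (2 * h + 1) g g' (h + 1) hgm hmg hgn ε ε' hε hε'
  rw [hxP, haP, hxM, haM, hyP, hcP, hyM, hcM] at hcrx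
  have hcrX := crX_count (2 * h + 1) g g' hgn ε ε' hε hε'
  rw [haP, hcP, haM, hcM] at hcrX
  have hL := left_half h g g' (h + 1) ε ε' hε hε' hfar hgn (Nat.le_succ h) le_rfl
    aP aM xP xM haP haM hxP hxM ((cP : ℤ) + yP) ((cM : ℤ) + yM) cP cM hyP hyM hcP hcM
  rw [Finset.sum_sub_distrib] at hL
  have hR := right_half h g g' ε ε' hε hε' hfar hgn cP cM yP yM hcP hcM hyP hyM
    ((aP : ℤ) + xP) ((aM : ℤ) + xM) aP aM hxP hxM haP haM
  rw [Finset.sum_sub_distrib] at hR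
  have hxPn : (0 : ℤ) ≤ xP := Int.natCast_nonneg xP
  have hxMn : (0 : ℤ) ≤ xM := Int.natCast_nonneg xM
  have hyPn : (0 : ℤ) ≤ yP := Int.natCast_nonneg yP
  have hyMn : (0 : ℤ) ≤ yM := Int.natCast_nonneg yM
  have hfar' : (g : ℤ) + h + 1 ≤ g' := by exact_mod_cast hfar
  have hndP := nd_count aP cP ((g : ℤ) - h - 1 + ((aP : ℤ) + xP))
    ((((h + 1 : ℕ)) : ℤ) - g' + ((cP : ℤ) + yP)) ((aP : ℤ) + xP + cP + yP - h)
    (by linarith) (by linarith) (by linarith)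
  have hndM := nd_count aM cM ((g : ℤ) - h - 1 + ((aM : ℤ) + xM))
    ((((h + 1 : ℕ)) : ℤ) - g' + ((cM : ℤ) + yM)) ((aM : ℤ) + xM + cM + yM - h)
    (by linarith) (by linarith) (by linarith)
  have eP1 : (aP : ℤ) + xP + cP + yP - h - aP = (xP : ℤ) + ((cP : ℤ) + yP) - h := by ring
  have eP2 : (aP : ℤ) + xP + cP + yP - h - cP = (yP : ℤ) + ((aP : ℤ) + xP) - h := by ring
  have eM1 : (aM : ℤ) + xM + cM + yM - h - aM = (xM : ℤ) + ((cM : ℤ) + yM) - h := by ring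
  have eM2 : (aM : ℤ) + xM + cM + yM - h - cM = (yM : ℤ) + ((aM : ℤ) + xM) - h := by ring
  rw [eP1, eP2] at hndP
  rw [eM1, eM2] at hndM
  have hRR := far_mid_rr ((aP : ℤ) + xP + cP + yP - h) ((aM : ℤ) + xM + cM + yM - h)
    (by linarith)
  exact far_mid_arith aP aM xP xM cP cM yP yM g h g' (((h + 1 : ℕ)) : ℤ)
    _ _ _ _ _ _ _ _ _ _ _ _ _ _ _ _ _ _ _ _ _ _
    hmm hs1 hs2 hs3 hs4 hL hR hndP hndM hRR
    (Finset.sum_Ico_consecutive (agree2 (2 * h + 1) g g' ε ε') hgm hmg).symm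
    hsplit hcrx hcrX

end Vale.Agent.Lib.P040.TP.Gen.Sw
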