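import Vale.Agent.Lib.P040.TP.Gen.Sw.Defs

namespace Vale.Agent.Lib.P040.TP.Gen.Sw

/-- The number of naturals `k < K` in an integer interval `[lo, hi)`. -/
theorem kap_count (K : ℕ) (lo hi : ℤ) :
    ∑ k ∈ Finset.range K, (if lo ≤ (k : ℤ) ∧ (k : ℤ) < hi then (1 : ℤ) else 0)
      ≤ pp (min hi K - pp lo) := by
  induction K with
  | zero =>
    simp only [Finset.range_zero, Finset.sum_empty]
    unfold pp
    omega
  | succ K ih =>
    rw [Finset.sum_range_succ]
    unfold pp at ih ⊢
    push_cast
    split_ifs with h <;> omega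

/-- The sum of the correction terms is at most a sum over `a` levels. -/
theorem kap_sum_le (K a : ℕ) (N x Y : ℤ) :
    ∑ k ∈ Finset.range K, kap N a x Y k ≤ ∑ i ∈ Finset.range a, pp (N - max Y (x + i)) := by
  induction a with
  | zero =>
    simp only [Finset.range_zero, Finset.sum_empty]
    apply Finset.sum_nonpos
    intro k _
    unfold kap pp
    push_cast
    omega
  | succ a ih =>
    have hstep : ∀ k ∈ Finset.range K, kap N ((a + 1 : ℕ) : ℤ) x Y k
        = kap N a x Y k
          + (if Y - a - x ≤ (k : ℤ) ∧ (k : ℤ) < N - a - x then (1 : ℤ) else 0) := by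
      intro k _
      unfold kap pp
      push_cast
      split_ifs with h <;> omega
    rw [Finset.sum_congr rfl hstep, Finset.sum_add_distrib, Finset.sum_range_succ]
    have hc := kap_count K (Y - a - x) (N - a - x)
    have hb : pp (min (N - a - x) K - pp (Y - a - x)) ≤ pp (N - max Y (x + a)) := by
      unfold pp
      omega
    linarith

end Vale.Agent.Lib.P040.TP.Gen.Sw
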