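import Vale.Agent.Lib.P040.TP.Gen.Sw.Defs

/-! # Elementary facts on the counting function `lc` -/

namespace Vale.Agent.Lib.P040.TP.Gen.Sw

private theorem lc_zero_aux (f : ℕ → ℤ) (s : ℤ) : lc f s 0 = 0 := by
  unfold lc
  rw [Finset.range_zero, Finset.sum_empty]

private theorem lc_ind_nonneg (f : ℕ → ℤ) (s : ℤ) (t : ℕ) :
    (0 : ℤ) ≤ (if f t = s then 1 else 0) := by
  split_ifs <;> norm_num

private theorem lc_ind_le_one (f : ℕ → ℤ) (s : ℤ) (t : ℕ) :
    (if f t = s then 1 else 0) ≤ (1 : ℤ) := by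
  split_ifs <;> norm_num

theorem lc_succ (f : ℕ → ℤ) (s : ℤ) (t : ℕ) :
    lc f s (t + 1) = lc f s t + (if f t = s then 1 else 0) := by
  unfold lc
  rw [Finset.sum_range_succ]

theorem lc_nonneg (f : ℕ → ℤ) (s : ℤ) (t : ℕ) : 0 ≤ lc f s t := by
  unfold lc
  exact Finset.sum_nonneg fun u _ => lc_ind_nonneg f s u

theorem lc_mono (f : ℕ → ℤ) (s : ℤ) (t t' : ℕ) (h : t ≤ t') : lc f s t ≤ lc f s t' := by
  induction t', h using Nat.le_induction with
  | base => exact le_rfl
  | succ n hn ih =>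
    rw [lc_succ]
    have h1 := lc_ind_nonneg f s n
    linarith

theorem lc_le (f : ℕ → ℤ) (s : ℤ) (t : ℕ) : lc f s t ≤ t := by
  induction t with
  | zero =>
    rw [lc_zero_aux]
    norm_num
  | succ n ih =>
    rw [lc_succ]
    have h1 := lc_ind_le_one f s n
    push_cast
    linarith

/-- The increase of the count between `t` and `t'` is at most `t' - t`. -/
theorem lc_diff_le (f : ℕ → ℤ) (s : ℤ) (t t' : ℕ) (h : t ≤ t') :
    lc f s t' - lc f s t ≤ (t' : ℤ) - t := by
  induction t', h using Nat.le_induction with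
  | base =>
    rw [sub_self, sub_self]
  | succ n hn ih =>
    rw [lc_succ]
    have h1 := lc_ind_le_one f s n
    push_cast
    linarith

theorem lc_add_sign (f : ℕ → ℤ) (hf : IsSign f) (t : ℕ) : lc f 1 t + lc f (-1) t = t := by
  induction t with
  | zero =>
    rw [lc_zero_aux, lc_zero_aux]
    norm_num
  | succ n ih =>
    rw [lc_succ, lc_succ]
    rcases hf n with h | h
    · have e1 : (if f n = 1 then (1 : ℤ) else 0) = 1 := by rw [if_pos h]
      have e2 : (if f n = -1 then (1 : ℤ) else 0) = 0 := by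
        rw [if_neg]
        rw [h]
        norm_num
      rw [e1, e2]
      push_cast
      linarith
    · have e1 : (if f n = 1 then (1 : ℤ) else 0) = 0 := by
        rw [if_neg]
        rw [h]
        norm_num
      have e2 : (if f n = -1 then (1 : ℤ) else 0) = 1 := by rw [if_pos h]
      rw [e1, e2]
      push_cast
      linarith

/-- Counting in the reversed sequence. -/
theorem lc_rev (m t : ℕ) (ht : t ≤ m) (ε : ℕ → ℤ) (s : ℤ) :
    lc (rev m ε) s t = lc ε s m - lc ε s (m - t) := by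
  induction t with
  | zero =>
    rw [lc_zero_aux, Nat.sub_zero, sub_self]
  | succ n ih =>
    have h1 := ih (Nat.le_of_succ_le ht)
    have h2 : m - n = (m - (n + 1)) + 1 := by omega
    have h3 : rev m ε n = ε (m - (n + 1)) := by
      unfold rev
      congr 1
      omega
    rw [lc_succ, h1, h2, lc_succ, h3]
    ring

theorem lc_cntp (n k : ℕ) (hk : k ≤ n) (ε : ℕ → ℤ) : cntp n ε k = lc ε 1 n - lc ε 1 k := by
  unfold cntp lc
  exact Finset.sum_Ico_eq_sub _ hk

theorem lc_cntm (n k : ℕ) (hk : k ≤ n) (ε : ℕ → ℤ) (hε : IsSign ε) :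
    cntm n ε k = lc ε (-1) n - lc ε (-1) k := by
  have e : ∀ l, (if ε l = 1 then (0 : ℤ) else 1) = (if ε l = -1 then 1 else 0) := by
    intro l
    rcases hε l with h | h
    · rw [if_pos h, if_neg]
      rw [h]
      norm_num
    · rw [if_neg, if_pos h]
      rw [h]
      norm_num
  unfold cntm lc
  rw [Finset.sum_congr rfl fun l _ => e l]
  exact Finset.sum_Ico_eq_sub _ hk

theorem cntp_rev_lc (n k : ℕ) (hk : k ≤ n) (ε : ℕ → ℤ) : cntp n (rev n ε) k = lc ε 1 (n - k) := by
  rw [lc_cntp n k hk (rev n ε), lc_rev n n le_rfl ε 1, lc_rev n k hk ε 1, Nat.sub_self,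
    lc_zero_aux]
  ring

theorem cntm_rev_lc (n k : ℕ) (hk : k ≤ n) (ε : ℕ → ℤ) (hε : IsSign ε) :
    cntm n (rev n ε) k = lc ε (-1) (n - k) := by
  rw [lc_cntm n k hk (rev n ε) (rev_isSign n ε hε), lc_rev n n le_rfl ε (-1),
    lc_rev n k hk ε (-1), Nat.sub_self, lc_zero_aux]
  ring

/-- Counting in the reversed sequence, in terms of the counts from the right. -/
theorem lc_rev_cntp (n m t : ℕ) (ht : t ≤ m) (hm : m ≤ n) (ε : ℕ → ℤ) :
    lc (rev m ε) 1 t = cntp n ε (m - t) - cntp n ε m := by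
  rw [lc_rev m t ht ε 1, lc_cntp n (m - t) (le_trans (Nat.sub_le m t) hm) ε, lc_cntp n m hm ε]
  ring

theorem lc_rev_cntm (n m t : ℕ) (ht : t ≤ m) (hm : m ≤ n) (ε : ℕ → ℤ) (hε : IsSign ε) :
    lc (rev m ε) (-1) t = cntm n ε (m - t) - cntm n ε m := by
  rw [lc_rev m t ht ε (-1), lc_cntm n (m - t) (le_trans (Nat.sub_le m t) hm) ε hε,
    lc_cntm n m hm ε hε]
  ring

end Vale.Agent.Lib.P040.TP.Gen.Sw
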