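import Vale.Agent.Lib.P040.TP.Gen.Sw.Lc
import Vale.Agent.Lib.P040.TP.Gen.WSum

/-! # Far pairs: closed forms of the sums over the left part of the middle zone -/

namespace Vale.Agent.Lib.P040.TP.Gen.Sw

private lemma sums_RR_le_one (x : ℤ) (hx : x ≤ 1) : RR x = 0 := by
  unfold RR
  have h : max x 0 = 0 ∨ max x 0 = 1 := by omega
  rcases h with h | h <;> rw [h] <;> ring

private lemma sums_RR_nonneg (x : ℤ) (hx : 0 ≤ x) : RR x = x * (x - 1) := by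
  unfold RR
  rw [max_eq_left hx]

private lemma sums_lin_aux (h g : ℕ) : ∀ d : ℕ,
    ∑ j ∈ Finset.Ico g (g + d), 2 * ((h : ℤ) - j)
      = ((h : ℤ) - g) * ((h : ℤ) - g + 1)
        - ((h : ℤ) - (g + d : ℕ)) * ((h : ℤ) - (g + d : ℕ) + 1) := by
  intro d
  induction d with
  | zero => simp
  | succ d ih =>
    rw [← Nat.add_assoc, Finset.sum_Ico_succ_top (Nat.le_add_right g d), ih]
    push_cast
    ring

private lemma sums_sel_aux (g : ℕ) (ε' : ℕ → ℤ) (hε' : IsSign ε') (cP cM : ℤ) : ∀ d : ℕ,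
    ∑ j ∈ Finset.Ico g (g + d), sel (ε' j) cP cM
      = (lc ε' 1 (g + d) - lc ε' 1 g) * cP + (lc ε' (-1) (g + d) - lc ε' (-1) g) * cM := by
  have h1 : ¬ ((1 : ℤ) = -1) := by decide
  have h2 : ¬ ((-1 : ℤ) = 1) := by decide
  intro d
  induction d with
  | zero => simp
  | succ d ih =>
    rw [← Nat.add_assoc, Finset.sum_Ico_succ_top (Nat.le_add_right g d), ih, lc_succ, lc_succ]
    unfold sel
    rcases hε' (g + d) with he | he
    · rw [he]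
      simp only [if_true, h1, if_false]
      ring
    · rw [he]
      simp only [if_true, h2, if_false]
      ring

private lemma sums_opp_aux (g : ℕ) (ε' : ℕ → ℤ) (hε' : IsSign ε') : ∀ d : ℕ,
    ∑ j ∈ Finset.Ico g (g + d), lc ε' (-(ε' j)) j
      = lc ε' 1 (g + d) * lc ε' (-1) (g + d) - lc ε' 1 g * lc ε' (-1) g := by
  have h1 : ¬ ((1 : ℤ) = -1) := by decide
  have h2 : ¬ ((-1 : ℤ) = 1) := by decide
  intro d
  induction d with
  | zero => simp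
  | succ d ih =>
    rw [← Nat.add_assoc, Finset.sum_Ico_succ_top (Nat.le_add_right g d), ih, lc_succ, lc_succ]
    rcases hε' (g + d) with he | he
    · rw [he]
      simp only [if_true, h1, if_false]
      ring
    · rw [he]
      simp only [neg_neg, if_true, h2, if_false]
      ring

theorem sum_abs (h g g' m : ℕ) (ε : ℕ → ℤ) (hε : IsSign ε)
    (hfar : g + h + 1 ≤ g') (hgn : g' ≤ 2 * h + 1) (hm : h ≤ m) (hm' : m ≤ h + 1) :
    ∑ j ∈ Finset.Ico g m, |omega (2 * h + 1) g ε j|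
      = RR ((h : ℤ) + 1 - g - cntp (2 * h + 1) ε m) + RR ((h : ℤ) + 1 - g - cntm (2 * h + 1) ε m)
    := by
  have hcons : ∑ j ∈ Finset.Ico g m, |omega (2 * h + 1) g ε j|
      + ∑ j ∈ Finset.Ico m (2 * h + 1), |omega (2 * h + 1) g ε j|
      = ∑ j ∈ Finset.Ico g (2 * h + 1), |omega (2 * h + 1) g ε j| :=
    Finset.sum_Ico_consecutive (fun j => |omega (2 * h + 1) g ε j|) (by omega) (by omega)
  have hWg := W_abs h g g ε hε (by omega) le_rfl (by omega)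
  have hWm := W_abs h g m ε hε (by omega) (by omega) (by omega)
  have hag := cnt_add (2 * h + 1) g (by omega) ε
  have ham := cnt_add (2 * h + 1) m (by omega) ε
  have pg := cntp_nonneg (2 * h + 1) g ε
  have mg := cntm_nonneg (2 * h + 1) g ε
  have pm := cntp_nonneg (2 * h + 1) m ε
  have mm := cntm_nonneg (2 * h + 1) m ε
  push_cast at hag ham
  obtain ⟨a, ha⟩ : ∃ a, a = cntp (2 * h + 1) ε g := ⟨_, rfl⟩
  obtain ⟨b, hb⟩ : ∃ b, b = cntm (2 * h + 1) ε g := ⟨_, rfl⟩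
  obtain ⟨a', ha'⟩ : ∃ a', a' = cntp (2 * h + 1) ε m := ⟨_, rfl⟩
  obtain ⟨b', hb'⟩ : ∃ b', b' = cntm (2 * h + 1) ε m := ⟨_, rfl⟩
  rw [← ha, ← hb] at hWg hag
  rw [← ha] at pg
  rw [← hb] at mg
  rw [← ha', ← hb'] at hWm ham
  rw [← ha'] at pm
  rw [← hb'] at mm
  rw [← ha', ← hb']
  have chm : (h : ℤ) ≤ m := by exact_mod_cast hm
  have chm' : (m : ℤ) ≤ h + 1 := by exact_mod_cast hm'
  have hg0 : (0 : ℤ) ≤ g := Int.natCast_nonneg g
  have hh0 : (0 : ℤ) ≤ h := Int.natCast_nonneg h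
  have e1 : (h : ℤ) + 1 - g - a = b - h := by linarith
  have e2 : (h : ℤ) + 1 - g - b = a - h := by linarith
  have e3 : (h : ℤ) + 1 - g - a - b = -(h : ℤ) := by linarith
  have r0 : RR (-(h : ℤ)) = 0 := sums_RR_le_one _ (by linarith)
  rw [e3, r0, e1, e2] at hWg
  have r1 : RR ((h : ℤ) + 1 - g - a' - b') = 0 := sums_RR_le_one _ (by linarith)
  have r2 : RR (a' - h) = 0 := sums_RR_le_one _ (by linarith)
  have r3 : RR (b' - h) = 0 := sums_RR_le_one _ (by linarith)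
  rw [r1, r2, r3] at hWm
  linarith

theorem sum_omega (h g g' m : ℕ) (ε' : ℕ → ℤ) (hε' : IsSign ε')
    (hfar : g + h + 1 ≤ g') (hgn : g' ≤ 2 * h + 1) (hm : h ≤ m) (hm' : m ≤ h + 1) :
    ∑ j ∈ Finset.Ico g m,
        omega (2 * h + 1) (2 * h + 1 - g') (rev (2 * h + 1) ε') (2 * h + 1 - 1 - j)
      = ((g' : ℤ) - h - 1) * ((g' : ℤ) - h) - RR ((g' : ℤ) - h - lc ε' 1 m)
        - RR ((g' : ℤ) - h - lc ε' (-1) m) - 2 * (lc ε' 1 g * lc ε' (-1) g) := by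
  obtain ⟨γ, hγ⟩ : ∃ γ : ℕ, γ + g' = 2 * h + 1 := ⟨2 * h + 1 - g', by omega⟩
  obtain ⟨km, hkm⟩ : ∃ km : ℕ, km + m = 2 * h + 1 := ⟨2 * h + 1 - m, by omega⟩
  obtain ⟨kg, hkg⟩ : ∃ kg : ℕ, kg + g = 2 * h + 1 := ⟨2 * h + 1 - g, by omega⟩
  have e1 : 2 * h + 1 - g' = γ := by omega
  have e2 : 2 * h + 1 - 1 = 2 * h := by omega
  rw [e1, e2]
  have hrefl : ∑ j ∈ Finset.Ico g m, omega (2 * h + 1) γ (rev (2 * h + 1) ε') (2 * h - j)
      = ∑ j ∈ Finset.Ico (2 * h + 1 - m) (2 * h + 1 - g),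
          omega (2 * h + 1) γ (rev (2 * h + 1) ε') j :=
    Finset.sum_Ico_reflect (fun i => omega (2 * h + 1) γ (rev (2 * h + 1) ε') i) g
      (by omega)
  have e3 : 2 * h + 1 - m = km := by omega
  have e4 : 2 * h + 1 - g = kg := by omega
  rw [e3, e4] at hrefl
  rw [hrefl]
  have hcons : ∑ j ∈ Finset.Ico km kg, omega (2 * h + 1) γ (rev (2 * h + 1) ε') j
      + ∑ j ∈ Finset.Ico kg (2 * h + 1), omega (2 * h + 1) γ (rev (2 * h + 1) ε') j
      = ∑ j ∈ Finset.Ico km (2 * h + 1), omega (2 * h + 1) γ (rev (2 * h + 1) ε') j :=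
    Finset.sum_Ico_consecutive (fun i => omega (2 * h + 1) γ (rev (2 * h + 1) ε') i)
      (by omega) (by omega)
  have hεr := rev_isSign (2 * h + 1) ε' hε'
  have hWm := W_sgn h γ km (rev (2 * h + 1) ε') hεr (by omega) (by omega) (by omega)
  have hWg := W_sgn h γ kg (rev (2 * h + 1) ε') hεr (by omega) (by omega) (by omega)
  have cpm : cntp (2 * h + 1) (rev (2 * h + 1) ε') km = lc ε' 1 m := by
    rw [cntp_rev_lc (2 * h + 1) km (by omega) ε', show 2 * h + 1 - km = m by omega]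
  have cmm : cntm (2 * h + 1) (rev (2 * h + 1) ε') km = lc ε' (-1) m := by
    rw [cntm_rev_lc (2 * h + 1) km (by omega) ε' hε', show 2 * h + 1 - km = m by omega]
  have cpg : cntp (2 * h + 1) (rev (2 * h + 1) ε') kg = lc ε' 1 g := by
    rw [cntp_rev_lc (2 * h + 1) kg (by omega) ε', show 2 * h + 1 - kg = g by omega]
  have cmg : cntm (2 * h + 1) (rev (2 * h + 1) ε') kg = lc ε' (-1) g := by
    rw [cntm_rev_lc (2 * h + 1) kg (by omega) ε' hε', show 2 * h + 1 - kg = g by omega]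
  rw [cpm, cmm] at hWm
  rw [cpg, cmg] at hWg
  have sAm := lc_add_sign ε' hε' m
  have sA := lc_add_sign ε' hε' g
  have nAm := lc_nonneg ε' 1 m
  have nBm := lc_nonneg ε' (-1) m
  have nA := lc_nonneg ε' 1 g
  have nB := lc_nonneg ε' (-1) g
  obtain ⟨Am, hAm⟩ : ∃ x, x = lc ε' 1 m := ⟨_, rfl⟩
  obtain ⟨Bm, hBm⟩ : ∃ x, x = lc ε' (-1) m := ⟨_, rfl⟩
  obtain ⟨A, hA⟩ : ∃ x, x = lc ε' 1 g := ⟨_, rfl⟩
  obtain ⟨B, hB⟩ : ∃ x, x = lc ε' (-1) g := ⟨_, rfl⟩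
  rw [← hAm, ← hBm] at hWm sAm
  rw [← hAm] at nAm
  rw [← hBm] at nBm
  rw [← hA, ← hB] at hWg sA
  rw [← hA] at nA
  rw [← hB] at nB
  rw [← hAm, ← hBm, ← hA, ← hB]
  have cγ : (γ : ℤ) + g' = 2 * (h : ℤ) + 1 := by exact_mod_cast hγ
  have cfar : (g : ℤ) + h + 1 ≤ g' := by exact_mod_cast hfar
  have cgn : (g' : ℤ) ≤ 2 * h + 1 := by exact_mod_cast hgn
  have chm : (h : ℤ) ≤ m := by exact_mod_cast hm
  have chm' : (m : ℤ) ≤ h + 1 := by exact_mod_cast hm'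
  have hg0 : (0 : ℤ) ≤ g := Int.natCast_nonneg g
  have eT : (h : ℤ) + 1 - γ = (g' : ℤ) - h := by linarith
  have eT' : (h : ℤ) - γ = (g' : ℤ) - h - 1 := by linarith
  rw [eT, eT'] at hWm hWg
  have r1 : RR ((g' : ℤ) - h - Am - Bm) = 0 := sums_RR_le_one _ (by linarith)
  have r2 : RR (Am - h) = 0 := sums_RR_le_one _ (by linarith)
  have r3 : RR (Bm - h) = 0 := sums_RR_le_one _ (by linarith)
  have r4 : RR ((g' : ℤ) - h - A) = ((g' : ℤ) - h - A) * ((g' : ℤ) - h - A - 1) :=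
    sums_RR_nonneg _ (by linarith)
  have r5 : RR ((g' : ℤ) - h - B) = ((g' : ℤ) - h - B) * ((g' : ℤ) - h - B - 1) :=
    sums_RR_nonneg _ (by linarith)
  have r6 : RR ((g' : ℤ) - h - A - B)
      = ((g' : ℤ) - h - A - B) * ((g' : ℤ) - h - A - B - 1) :=
    sums_RR_nonneg _ (by linarith)
  have r7 : RR (A - h) = 0 := sums_RR_le_one _ (by linarith)
  have r8 : RR (B - h) = 0 := sums_RR_le_one _ (by linarith)
  rw [r1, r2, r3] at hWm
  rw [r6, r4, r5, r7, r8] at hWg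
  linarith

theorem sum_opp (g m : ℕ) (hgm : g ≤ m) (ε' : ℕ → ℤ) (hε' : IsSign ε') :
    ∑ j ∈ Finset.Ico g m, lc ε' (-(ε' j)) j
      = lc ε' 1 m * lc ε' (-1) m - lc ε' 1 g * lc ε' (-1) g := by
  obtain ⟨d, rfl⟩ : ∃ d, m = g + d := ⟨m - g, by omega⟩
  exact sums_opp_aux g ε' hε' d

theorem sum_sel (g m : ℕ) (hgm : g ≤ m) (ε' : ℕ → ℤ) (hε' : IsSign ε') (cP cM : ℤ) :
    ∑ j ∈ Finset.Ico g m, sel (ε' j) cP cM
      = (lc ε' 1 m - lc ε' 1 g) * cP + (lc ε' (-1) m - lc ε' (-1) g) * cM := by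
  obtain ⟨d, rfl⟩ : ∃ d, m = g + d := ⟨m - g, by omega⟩
  exact sums_sel_aux g ε' hε' cP cM d

theorem sum_lin (h g m : ℕ) (hgm : g ≤ m) (hm' : m ≤ h + 1) :
    ∑ j ∈ Finset.Ico g m, 2 * ((h : ℤ) - j)
      = ((h : ℤ) - g) * ((h : ℤ) - g + 1) - ((h : ℤ) - m) * ((h : ℤ) - m + 1) := by
  have _hm := hm'
  obtain ⟨d, rfl⟩ : ∃ d, m = g + d := ⟨m - g, by omega⟩
  exact sums_lin_aux h g d

end Vale.Agent.Lib.P040.TP.Gen.Sw
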