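import Vale.Agent.Lib.P040.TP.Gen.Sw.Total
import Vale.Agent.Lib.P040.TP.Gen.Sw.Col
import Vale.Agent.Lib.P040.TP.Gen.Sw.Sums

namespace Vale.Agent.Lib.P040.TP.Gen.Sw

/-- Reflection of a sum over the columns `g, ..., m - 1`. -/
private lemma left_reflect (F : ℕ → ℤ) (g m : ℕ) :
    ∑ j ∈ Finset.Ico g m, F (m - 1 - j) = ∑ t ∈ Finset.range (m - g), F t := by
  rw [Finset.sum_Ico_eq_sum_range, ← Finset.sum_range_reflect F (m - g)]
  apply Finset.sum_congr rfl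
  intro k _
  congr 1
  omega

/-- Splitting a sum of six terms. -/
private lemma left_split (s : Finset ℕ) (a b c d e f : ℕ → ℤ) :
    ∑ j ∈ s, (4 * a j + b j - 2 * c j + 2 * d j - e j - f j)
      = 4 * ∑ j ∈ s, a j + ∑ j ∈ s, b j - 2 * ∑ j ∈ s, c j + 2 * ∑ j ∈ s, d j
        - ∑ j ∈ s, e j - ∑ j ∈ s, f j := by
  simp only [Finset.sum_add_distrib, Finset.sum_sub_distrib, Finset.mul_sum]

/-- The correction sums of the sweep, in the form used in the statement. -/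
private lemma left_pp_sum (a : ℕ) (m g' h x Y : ℤ) :
    ∑ i ∈ Finset.range a, pp ((m + h - g') - max (h - Y) (x + (i : ℤ)))
      = ∑ i ∈ Finset.range a, pp ((m - g' + Y) - pp (x + Y - h + (i : ℤ))) := by
  apply Finset.sum_congr rfl
  intro i _
  unfold pp
  omega

/-- The sweep bound for the left part of the middle zone. -/
private lemma left_sweep (h g g' m : ℕ) (ε ε' : ℕ → ℤ) (hε : IsSign ε) (hε' : IsSign ε')
    (hgm : g ≤ m) (hm : h ≤ m) (hmn : m ≤ 2 * h + 1)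
    (aP aM xP xM : ℕ) (haP : lc ε' 1 g = aP) (haM : lc ε' (-1) g = aM)
    (hxP : lc ε' 1 m = (aP : ℤ) + xP) (hxM : lc ε' (-1) m = (aM : ℤ) + xM)
    (YP YM : ℤ) (hYP : cntp (2 * h + 1) ε m = YP) (hYM : cntm (2 * h + 1) ε m = YM) :
    RR ((xP : ℤ) + YP - h) + RR ((xM : ℤ) + YM - h)
        - 2 * ∑ i ∈ Finset.range aM, pp (((m : ℤ) - g' + YM) - pp ((xM : ℤ) + YM - h + i))
        - 2 * ∑ i ∈ Finset.range aP, pp (((m : ℤ) - g' + YP) - pp ((xP : ℤ) + YP - h + i))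
      ≤ 2 * ∑ t ∈ Finset.range (m - g), tcol (m - g) (rev m ε') (rev m ε) g
          ((m : ℤ) + h - g') aP aM ((h : ℤ) - YM) ((h : ℤ) - YP) t := by
  have hp : IsSign (rev m ε') := rev_isSign m ε' hε'
  have he : IsSign (rev m ε) := rev_isSign m ε hε
  have hadd := lc_add_sign ε' hε' g
  rw [haP, haM] at hadd
  have hcnt := cnt_add (2 * h + 1) m hmn ε
  rw [hYP, hYM] at hcnt
  push_cast at hcnt
  have hYPnn : 0 ≤ YP := by
    rw [← hYP]
    exact cntp_nonneg _ _ _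
  have hYMnn : 0 ≤ YM := by
    rw [← hYM]
    exact cntm_nonneg _ _ _
  have hmZ : (h : ℤ) ≤ m := by exact_mod_cast hm
  have hC : ((m - g : ℕ) : ℤ) = (m : ℤ) - g := Nat.cast_sub hgm
  have hxP' : lc (rev m ε') 1 (m - g) = xP := by
    rw [lc_rev m (m - g) (Nat.sub_le m g) ε' 1, Nat.sub_sub_self hgm, hxP, haP]
    ring
  have hxM' : lc (rev m ε') (-1) (m - g) = xM := by
    rw [lc_rev m (m - g) (Nat.sub_le m g) ε' (-1), Nat.sub_sub_self hgm, hxM, haM]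
    ring
  have haPnn : (0 : ℤ) ≤ aP := Int.natCast_nonneg aP
  have haMnn : (0 : ℤ) ≤ aM := Int.natCast_nonneg aM
  have hst := sweep_total (m - g) (rev m ε') (rev m ε) hp he (g : ℤ) ((m : ℤ) + h - g')
    aP aM xP xM ((h : ℤ) - YM) ((h : ℤ) - YP) (by linarith) (by linarith)
    (by rw [hC]; linarith) (by linarith) (by linarith) hxP' hxM'
  have e1 : (xP : ℤ) - ((h : ℤ) - YP) = (xP : ℤ) + YP - h := by ring
  have e2 : (xM : ℤ) - ((h : ℤ) - YM) = (xM : ℤ) + YM - h := by ring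
  rw [e1, e2, left_pp_sum aM m g' h xM YM, left_pp_sum aP m g' h xP YP] at hst
  exact hst

/-- Far pairs: lower bound for the crossings minus the agreements over the columns `g, ..., m-1`
(`m = h` or `m = h + 1`) of the middle zone, in terms of the sign counts. -/
theorem left_half (h g g' m : ℕ) (ε ε' : ℕ → ℤ) (hε : IsSign ε) (hε' : IsSign ε')
    (hfar : g + h + 1 ≤ g') (hgn : g' ≤ 2 * h + 1) (hm : h ≤ m) (hm' : m ≤ h + 1)
    (aP aM xP xM : ℕ) (haP : lc ε' 1 g = aP) (haM : lc ε' (-1) g = aM)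
    (hxP : lc ε' 1 m = (aP : ℤ) + xP) (hxM : lc ε' (-1) m = (aM : ℤ) + xM)
    (YP YM cP cM : ℤ) (hYP : cntp (2 * h + 1) ε m = YP) (hYM : cntm (2 * h + 1) ε m = YM)
    (hcP : cntp (2 * h + 1) ε g' = cP) (hcM : cntm (2 * h + 1) ε g' = cM) :
    2 * (RR ((xP : ℤ) + YP - h) + RR ((xM : ℤ) + YM - h))
        - 4 * (∑ i ∈ Finset.range aP, pp (((m : ℤ) - g' + YP) - pp ((xP : ℤ) + YP - h + i))
          + ∑ i ∈ Finset.range aM, pp (((m : ℤ) - g' + YM) - pp ((xM : ℤ) + YM - h + i)))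
        + (((h : ℤ) - g) * ((h : ℤ) - g + 1) - ((h : ℤ) - m) * ((h : ℤ) - m + 1))
        - 2 * ((xP : ℤ) * cP + (xM : ℤ) * cM)
        + 2 * (((aP : ℤ) + xP) * ((aM : ℤ) + xM) - (aP : ℤ) * aM)
        - (((g' : ℤ) - h - 1) * ((g' : ℤ) - h) - RR ((g' : ℤ) - h - ((aP : ℤ) + xP))
          - RR ((g' : ℤ) - h - ((aM : ℤ) + xM)) - 2 * ((aP : ℤ) * aM))
        - (RR ((h : ℤ) + 1 - g - YP) + RR ((h : ℤ) + 1 - g - YM))
      ≤ ∑ j ∈ Finset.Ico g m,
          (∑ k ∈ Finset.Ico (j + 1) g', (1 + ε k * ε' j) - agree2 (2 * h + 1) g g' ε ε' j) := by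
  have hgm : g ≤ m := by omega
  have hmn : m ≤ 2 * h + 1 := by omega
  have hst := left_sweep h g g' m ε ε' hε hε' hgm hm hmn aP aM xP xM haP haM hxP hxM YP YM
    hYP hYM
  obtain ⟨T, hT⟩ : ∃ T : ℕ → ℤ, T = tcol (m - g) (rev m ε') (rev m ε) g
      ((m : ℤ) + h - g') aP aM ((h : ℤ) - YM) ((h : ℤ) - YP) := ⟨_, rfl⟩
  rw [← hT] at hst
  have hcol : ∀ j ∈ Finset.Ico g m,
      (∑ k ∈ Finset.Ico (j + 1) g', (1 + ε k * ε' j) - agree2 (2 * h + 1) g g' ε ε' j)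
        = 4 * T (m - 1 - j) + 2 * ((h : ℤ) - j) - 2 * sel (ε' j) cP cM
          + 2 * lc ε' (-(ε' j)) j
          - omega (2 * h + 1) (2 * h + 1 - g') (rev (2 * h + 1) ε') (2 * h + 1 - 1 - j)
          - |omega (2 * h + 1) g ε j| := by
    intro j hj
    rw [Finset.mem_Ico] at hj
    rw [col_id h g g' m ε ε' hε hε' hfar hgn hm' j hj.1 hj.2, haP, haM, hYP, hYM, hcP, hcM, hT]
  have hsplit := left_split (Finset.Ico g m) (fun j => T (m - 1 - j))
    (fun j => 2 * ((h : ℤ) - j)) (fun j => sel (ε' j) cP cM) (fun j => lc ε' (-(ε' j)) j)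
    (fun j => omega (2 * h + 1) (2 * h + 1 - g') (rev (2 * h + 1) ε') (2 * h + 1 - 1 - j))
    (fun j => |omega (2 * h + 1) g ε j|)
  have hrefl := left_reflect T g m
  have h2 := sum_lin h g m hgm hm'
  have h3 := sum_sel g m hgm ε' hε' cP cM
  rw [hxP, hxM, haP, haM] at h3
  have h4 := sum_opp g m hgm ε' hε'
  rw [hxP, hxM, haP, haM] at h4
  have h5 := sum_omega h g g' m ε' hε' hfar hgn hm hm'
  rw [hxP, hxM, haP, haM] at h5
  have h6 := sum_abs h g g' m ε hε hfar hgn hm hm'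
  rw [hYP, hYM] at h6
  rw [Finset.sum_congr rfl hcol]
  refine le_of_le_of_eq ?_ hsplit.symm
  rw [hrefl, h2, h3, h4, h5, h6]
  linarith

end Vale.Agent.Lib.P040.TP.Gen.Sw
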