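import Vale.Agent.Lib.P040.TP.Gen.Sw.Left

namespace Vale.Agent.Lib.P040.TP.Gen.Sw

/-- Far pairs: lower bound for the crossings minus the agreements over the columns
`h+1, ..., g'-1` of the middle zone (reflection of `left_half` with `m = h`). -/
theorem right_half (h g g' : ℕ) (ε ε' : ℕ → ℤ) (hε : IsSign ε) (hε' : IsSign ε')
    (hfar : g + h + 1 ≤ g') (hgn : g' ≤ 2 * h + 1)
    (cP cM yP yM : ℕ) (hcP : cntp (2 * h + 1) ε g' = cP) (hcM : cntm (2 * h + 1) ε g' = cM)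
    (hyP : cntp (2 * h + 1) ε (h + 1) = (cP : ℤ) + yP)
    (hyM : cntm (2 * h + 1) ε (h + 1) = (cM : ℤ) + yM)
    (XP XM aP aM : ℤ) (hXP : lc ε' 1 (h + 1) = XP) (hXM : lc ε' (-1) (h + 1) = XM)
    (haP : lc ε' 1 g = aP) (haM : lc ε' (-1) g = aM) :
    2 * (RR ((yP : ℤ) + XP - h) + RR ((yM : ℤ) + XM - h))
        - 4 * (∑ i ∈ Finset.range cP, pp (((g : ℤ) - h - 1 + XP) - pp ((yP : ℤ) + XP - h + i))
          + ∑ i ∈ Finset.range cM, pp (((g : ℤ) - h - 1 + XM) - pp ((yM : ℤ) + XM - h + i)))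
        + ((g' : ℤ) - h - 1) * ((g' : ℤ) - h)
        - 2 * ((yP : ℤ) * aP + (yM : ℤ) * aM)
        + 2 * (((cP : ℤ) + yP) * ((cM : ℤ) + yM) - (cP : ℤ) * cM)
        - (((h : ℤ) - g) * ((h : ℤ) + 1 - g) - RR ((h : ℤ) + 1 - g - ((cP : ℤ) + yP))
          - RR ((h : ℤ) + 1 - g - ((cM : ℤ) + yM)) - 2 * ((cP : ℤ) * cM))
        - (RR ((g' : ℤ) - h - XP) + RR ((g' : ℤ) - h - XM))
      ≤ ∑ j ∈ Finset.Ico (h + 1) g',
          (∑ l ∈ Finset.Ico g j, (1 + ε j * ε' l) - agree2 (2 * h + 1) g g' ε ε' j) := by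
  have hg'' : g ≤ 2 * h + 1 := by omega
  have e1 : 2 * h + 1 - (2 * h + 1 - g') = g' := by omega
  have e2 : 2 * h + 1 - h = h + 1 := by omega
  have e3 : 2 * h + 1 - (2 * h + 1 - g) = g := by omega
  have haP' : lc (rev (2 * h + 1) ε) 1 (2 * h + 1 - g') = ((cP : ℕ) : ℤ) := by
    rw [lc_rev _ _ (Nat.sub_le _ _), e1, ← lc_cntp _ _ hgn]
    exact hcP
  have haM' : lc (rev (2 * h + 1) ε) (-1) (2 * h + 1 - g') = ((cM : ℕ) : ℤ) := by
    rw [lc_rev _ _ (Nat.sub_le _ _), e1, ← lc_cntm _ _ hgn ε hε]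
    exact hcM
  have hxP' : lc (rev (2 * h + 1) ε) 1 h = ((cP : ℕ) : ℤ) + ((yP : ℕ) : ℤ) := by
    rw [lc_rev (2 * h + 1) h (by omega), e2, ← lc_cntp (2 * h + 1) (h + 1) (by omega)]
    exact hyP
  have hxM' : lc (rev (2 * h + 1) ε) (-1) h = ((cM : ℕ) : ℤ) + ((yM : ℕ) : ℤ) := by
    rw [lc_rev (2 * h + 1) h (by omega), e2, ← lc_cntm (2 * h + 1) (h + 1) (by omega) ε hε]
    exact hyM
  have hYP' : cntp (2 * h + 1) (rev (2 * h + 1) ε') h = XP := by
    rw [cntp_rev_lc (2 * h + 1) h (by omega), e2]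
    exact hXP
  have hYM' : cntm (2 * h + 1) (rev (2 * h + 1) ε') h = XM := by
    rw [cntm_rev_lc (2 * h + 1) h (by omega) ε' hε', e2]
    exact hXM
  have hcP' : cntp (2 * h + 1) (rev (2 * h + 1) ε') (2 * h + 1 - g) = aP := by
    rw [cntp_rev_lc (2 * h + 1) (2 * h + 1 - g) (Nat.sub_le _ _), e3]
    exact haP
  have hcM' : cntm (2 * h + 1) (rev (2 * h + 1) ε') (2 * h + 1 - g) = aM := by
    rw [cntm_rev_lc (2 * h + 1) (2 * h + 1 - g) (Nat.sub_le _ _) ε' hε', e3]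
    exact haM
  have key := left_half h (2 * h + 1 - g') (2 * h + 1 - g) h (rev (2 * h + 1) ε')
    (rev (2 * h + 1) ε) (rev_isSign _ _ hε') (rev_isSign _ _ hε) (by omega) (Nat.sub_le _ _)
    le_rfl (Nat.le_succ h) cP cM yP yM haP' haM' hxP' hxM' XP XM aP aM hYP' hYM' hcP' hcM'
  have hsum : ∑ j ∈ Finset.Ico (2 * h + 1 - g') h,
        (∑ k ∈ Finset.Ico (j + 1) (2 * h + 1 - g),
            (1 + rev (2 * h + 1) ε' k * rev (2 * h + 1) ε j)
          - agree2 (2 * h + 1) (2 * h + 1 - g') (2 * h + 1 - g) (rev (2 * h + 1) ε')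
              (rev (2 * h + 1) ε) j)
      = ∑ j ∈ Finset.Ico (h + 1) g',
          (∑ l ∈ Finset.Ico g j, (1 + ε j * ε' l) - agree2 (2 * h + 1) g g' ε ε' j) := by
    refine Finset.sum_nbij' (fun j => 2 * h - j) (fun j => 2 * h - j) ?_ ?_ ?_ ?_ ?_
    · intro j hj
      simp only [Finset.mem_Ico] at hj ⊢
      omega
    · intro j hj
      simp only [Finset.mem_Ico] at hj ⊢
      omega
    · intro j hj
      simp only [Finset.mem_Ico] at hj
      omega
    · intro j hj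
      simp only [Finset.mem_Ico] at hj
      omega
    · intro j hj
      simp only [Finset.mem_Ico] at hj
      have hag := agree2_mirror (2 * h + 1) g g' ε ε' (by omega) hgn (2 * h - j) (by omega)
      have e : 2 * h + 1 - 1 - (2 * h - j) = j := by omega
      rw [e] at hag
      have hin : ∑ k ∈ Finset.Ico (j + 1) (2 * h + 1 - g),
            (1 + rev (2 * h + 1) ε' k * rev (2 * h + 1) ε j)
          = ∑ l ∈ Finset.Ico g (2 * h - j), (1 + ε (2 * h - j) * ε' l) := by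
        refine Finset.sum_nbij' (fun k => 2 * h - k) (fun l => 2 * h - l) ?_ ?_ ?_ ?_ ?_
        · intro k hk
          simp only [Finset.mem_Ico] at hk ⊢
          omega
        · intro l hl
          simp only [Finset.mem_Ico] at hl ⊢
          omega
        · intro k hk
          simp only [Finset.mem_Ico] at hk
          omega
        · intro l hl
          simp only [Finset.mem_Ico] at hl
          omega
        · intro k hk
          simp only [Finset.mem_Ico] at hk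
          unfold rev
          have e4 : 2 * h + 1 - 1 - k = 2 * h - k := by omega
          have e5 : 2 * h + 1 - 1 - j = 2 * h - j := by omega
          rw [e4, e5, mul_comm]
      rw [hag, hin]
  rw [hsum] at key
  have hcast1 : ((2 * h + 1 - g' : ℕ) : ℤ) = 2 * (h : ℤ) + 1 - g' := by omega
  have hcast2 : ((2 * h + 1 - g : ℕ) : ℤ) = 2 * (h : ℤ) + 1 - g := by omega
  rw [hcast1, hcast2] at key
  have a1 : (h : ℤ) - (2 * (h : ℤ) + 1 - g) + XP = (g : ℤ) - h - 1 + XP := by ring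
  have a2 : (h : ℤ) - (2 * (h : ℤ) + 1 - g) + XM = (g : ℤ) - h - 1 + XM := by ring
  have a3 : 2 * (h : ℤ) + 1 - g - h - ((cP : ℤ) + yP) = (h : ℤ) + 1 - g - ((cP : ℤ) + yP) := by
    ring
  have a4 : 2 * (h : ℤ) + 1 - g - h - ((cM : ℤ) + yM) = (h : ℤ) + 1 - g - ((cM : ℤ) + yM) := by
    ring
  have a5 : (h : ℤ) + 1 - (2 * (h : ℤ) + 1 - g') - XP = (g' : ℤ) - h - XP := by ring
  have a6 : (h : ℤ) + 1 - (2 * (h : ℤ) + 1 - g') - XM = (g' : ℤ) - h - XM := by ring
  rw [a1, a2, a3, a4, a5, a6] at key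
  refine le_trans (le_of_eq ?_) key
  ring

end Vale.Agent.Lib.P040.TP.Gen.Sw
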