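import Vale.Agent.Lib.P040.TP.Gen.Sw.Defs

namespace Vale.Agent.Lib.P040.TP.Gen.Sw

/-- The integer inequality behind a step of the sweep in a column where the two sequences
differ. -/
theorem sweep_flip_step (G N a l w t Y : ℤ) (ha : 0 ≤ a) (haG : a ≤ G) (hl : 0 ≤ l)
    (hi : w - l + Y ≤ t) :
    0 ≤ min (pp (l - w - G)) (pp (l - w) - min (a + l) (pp (N - t)))
      + pp (min (t + l + a) N - max Y (t + l)) + pp w - pp (-G - w) - pp (w - l) := by
  unfold pp
  omega

end Vale.Agent.Lib.P040.TP.Gen.Sw
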