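import Vale.Agent.Lib.P040.TP.Gen.Sw.Lc

namespace Vale.Agent.Lib.P040.TP.Gen.Sw

/-- Summing a function of the running count over the indices where the sequence takes the
value `s`. -/
theorem sum_by_count (C : ℕ) (p : ℕ → ℤ) (s : ℤ) (F : ℤ → ℤ) (K : ℕ) (hK : lc p s C = K) :
    ∑ t ∈ Finset.range C, (if p t = s then F (lc p s t) else 0)
      = ∑ k ∈ Finset.range K, F (k : ℤ) := by
  induction C generalizing K with
  | zero =>
    have h0 : lc p s 0 = 0 := by
      unfold lc
      rw [Finset.range_zero, Finset.sum_empty]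
    rw [h0] at hK
    have hK0 : K = 0 := by omega
    subst hK0
    rw [Finset.range_zero, Finset.sum_empty, Finset.sum_empty]
  | succ C ih =>
    rw [Finset.sum_range_succ]
    rw [lc_succ] at hK
    by_cases hp : p C = s
    · rw [if_pos hp] at hK
      rw [if_pos hp]
      have hnn := lc_nonneg p s C
      obtain ⟨K', rfl⟩ : ∃ K', K = K' + 1 := ⟨K - 1, by omega⟩
      have hK' : lc p s C = K' := by
        push_cast at hK
        omega
      rw [ih K' hK', Finset.sum_range_succ, hK']
    · rw [if_neg hp, add_zero] at hK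
      rw [if_neg hp, add_zero]
      exact ih K hK

private theorem sum_pp_range_key (m : ℤ) :
    max m 0 * (max m 0 - 1) + 2 * max m 0 = max (m + 1) 0 * (max (m + 1) 0 - 1) := by
  rcases le_or_gt m 0 with h | h
  · rw [max_eq_right h]
    rcases le_or_gt (m + 1) 0 with h' | h'
    · rw [max_eq_right h']
      norm_num
    · have h1 : m + 1 = 1 := by omega
      rw [h1]
      norm_num
  · rw [max_eq_left h.le, max_eq_left (by omega : (0 : ℤ) ≤ m + 1)]
    ring

/-- Sum of the positive parts of `k - Y` for `k < K`. -/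
theorem sum_pp_range (K : ℕ) (Y : ℤ) (hY : -1 ≤ Y) :
    2 * ∑ k ∈ Finset.range K, pp ((k : ℤ) - Y) = RR ((K : ℤ) - Y) := by
  induction K with
  | zero =>
    rw [Finset.range_zero, Finset.sum_empty, mul_zero, Nat.cast_zero, zero_sub]
    unfold RR
    rcases le_or_gt (-Y) 0 with h | h
    · rw [max_eq_right h, zero_mul]
    · have h1 : -Y = 1 := by omega
      rw [h1]
      norm_num
  | succ K ih =>
    rw [Finset.sum_range_succ, mul_add, ih]
    have h1 : ((K + 1 : ℕ) : ℤ) - Y = ((K : ℤ) - Y) + 1 := by
      push_cast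
      ring
    rw [h1]
    unfold RR pp
    exact sum_pp_range_key ((K : ℤ) - Y)

end Vale.Agent.Lib.P040.TP.Gen.Sw
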