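import Vale.Agent.Lib.P040.TP.Gen.Sw.Step
import Vale.Agent.Lib.P040.TP.Gen.Sw.Lc

namespace Vale.Agent.Lib.P040.TP.Gen.Sw

private theorem rr_succ (z : ℤ) : RR (z + 1) = RR z + 2 * pp z := by
  unfold RR pp
  rcases le_or_gt 0 z with h | h
  · rw [max_eq_left h, max_eq_left (by omega : (0 : ℤ) ≤ z + 1)]
    ring
  · rw [max_eq_right (by omega : z ≤ 0), max_eq_right (by omega : z + 1 ≤ 0)]
    ring

private theorem sel_one (a b : ℤ) : sel 1 a b = a := by
  unfold sel
  rw [if_pos rfl]

private theorem sel_neg_one (a b : ℤ) : sel (-1) a b = b := by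
  unfold sel
  rw [if_neg (by decide)]

private theorem kap_nonneg (N a x Y k : ℤ) : 0 ≤ kap N a x Y k := by
  unfold kap pp
  exact le_max_right _ _

/-- The potential of the sweep. -/
private def pot (iP iM kP kM xP xM YP YM : ℤ) : ℤ :=
  RR (iM + xM - kM - YP) + RR (iP + xP - kP - YM) - RR (iM - YP) - RR (iP - YM)
    - RR (xM - YP) - RR (xP - YM) + RR (kM - YP) + RR (kP - YM)

private theorem pot_same_P (iP iM kP kM xP xM YP YM : ℤ) :
    pot (iP + 1) iM (kP + 1) kM xP xM YP YM = pot iP iM kP kM xP xM YP YM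
      - 2 * pp (iP - YM) + 2 * pp (kP - YM) := by
  unfold pot
  have e1 : iP + 1 + xP - (kP + 1) - YM = iP + xP - kP - YM := by ring
  have e2 : RR (iP + 1 - YM) = RR (iP - YM) + 2 * pp (iP - YM) := by
    rw [← rr_succ]
    congr 1
    ring
  have e3 : RR (kP + 1 - YM) = RR (kP - YM) + 2 * pp (kP - YM) := by
    rw [← rr_succ]
    congr 1
    ring
  rw [e1, e2, e3]
  ring

private theorem pot_same_M (iP iM kP kM xP xM YP YM : ℤ) :
    pot iP (iM + 1) kP (kM + 1) xP xM YP YM = pot iP iM kP kM xP xM YP YM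
      - 2 * pp (iM - YP) + 2 * pp (kM - YP) := by
  unfold pot
  have e1 : iM + 1 + xM - (kM + 1) - YP = iM + xM - kM - YP := by ring
  have e2 : RR (iM + 1 - YP) = RR (iM - YP) + 2 * pp (iM - YP) := by
    rw [← rr_succ]
    congr 1
    ring
  have e3 : RR (kM + 1 - YP) = RR (kM - YP) + 2 * pp (kM - YP) := by
    rw [← rr_succ]
    congr 1
    ring
  rw [e1, e2, e3]
  ring

private theorem pot_flip_PM (iP iM kP kM xP xM YP YM : ℤ) :
    pot iP (iM + 1) (kP + 1) kM xP xM YP YM = pot iP iM kP kM xP xM YP YM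
      + 2 * pp (iM + xM - kM - YP) - 2 * pp (iP + xP - kP - 1 - YM)
      - 2 * pp (iM - YP) + 2 * pp (kP - YM) := by
  unfold pot
  have e1 : RR (iM + 1 + xM - kM - YP) = RR (iM + xM - kM - YP) + 2 * pp (iM + xM - kM - YP) := by
    rw [← rr_succ]
    congr 1
    ring
  have e2 : RR (iP + xP - kP - YM) = RR (iP + xP - (kP + 1) - YM)
      + 2 * pp (iP + xP - kP - 1 - YM) := by
    have h := rr_succ (iP + xP - kP - 1 - YM)
    have a1 : iP + xP - kP - 1 - YM + 1 = iP + xP - kP - YM := by ring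
    have a2 : iP + xP - kP - 1 - YM = iP + xP - (kP + 1) - YM := by ring
    rw [a1] at h
    rw [h, a2]
  have e3 : RR (iM + 1 - YP) = RR (iM - YP) + 2 * pp (iM - YP) := by
    rw [← rr_succ]
    congr 1
    ring
  have e4 : RR (kP + 1 - YM) = RR (kP - YM) + 2 * pp (kP - YM) := by
    rw [← rr_succ]
    congr 1
    ring
  rw [e1, e3, e4]
  have a2 : iP + xP - kP - 1 - YM = iP + xP - (kP + 1) - YM := by ring
  rw [a2] at e2 ⊢
  linarith

private theorem pot_flip_MP (iP iM kP kM xP xM YP YM : ℤ) :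
    pot (iP + 1) iM kP (kM + 1) xP xM YP YM = pot iP iM kP kM xP xM YP YM
      + 2 * pp (iP + xP - kP - YM) - 2 * pp (iM + xM - kM - 1 - YP)
      - 2 * pp (iP - YM) + 2 * pp (kM - YP) := by
  unfold pot
  have e1 : RR (iP + 1 + xP - kP - YM) = RR (iP + xP - kP - YM) + 2 * pp (iP + xP - kP - YM) := by
    rw [← rr_succ]
    congr 1
    ring
  have e2 : RR (iM + xM - kM - YP) = RR (iM + xM - (kM + 1) - YP)
      + 2 * pp (iM + xM - kM - 1 - YP) := by
    have h := rr_succ (iM + xM - kM - 1 - YP)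
    have a1 : iM + xM - kM - 1 - YP + 1 = iM + xM - kM - YP := by ring
    have a2 : iM + xM - kM - 1 - YP = iM + xM - (kM + 1) - YP := by ring
    rw [a1] at h
    rw [h, a2]
  have e3 : RR (iP + 1 - YM) = RR (iP - YM) + 2 * pp (iP - YM) := by
    rw [← rr_succ]
    congr 1
    ring
  have e4 : RR (kM + 1 - YP) = RR (kM - YP) + 2 * pp (kM - YP) := by
    rw [← rr_succ]
    congr 1
    ring
  rw [e1, e3, e4]
  have a2 : iM + xM - kM - 1 - YP = iM + xM - (kM + 1) - YP := by ring
  rw [a2] at e2 ⊢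
  linarith

/-- The integer inequality of a column where the two sequences differ, in the variables of
the sweep: `i k x` count the sign of `e` in that column, `io ko xo` the other sign. -/
private theorem flip_core (G N a Y Yo i io k ko x xo t C : ℤ) (ha : 0 ≤ a) (haG : a ≤ G)
    (hi : io + i = t) (hk : ko + k = t) (hx : xo + x = C) (hY : Y + Yo = C + G - 1)
    (hxk : k ≤ x) (hio : 0 ≤ io) :
    0 ≤ min (pp (Y - i - G)) (pp (Y - i) - min (a + (x - k)) (pp (N - t)))
      + kap N a x Y ko + pp (i + x - k - Y) - pp (io + xo - ko - 1 - Yo) - pp (i - Y) := by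
  have hs := sweep_flip_step G N a (x - k) (i + (x - k) - Y) t Y ha haG (by omega) (by omega)
  have e1 : x - k - (i + (x - k) - Y) - G = Y - i - G := by ring
  have e2 : x - k - (i + (x - k) - Y) = Y - i := by ring
  have e3 : t + (x - k) + a = ko + a + x := by omega
  have e4 : t + (x - k) = ko + x := by omega
  have e5 : i + (x - k) - Y = i + x - k - Y := by ring
  have e6 : -G - (i + (x - k) - Y) = io + xo - ko - 1 - Yo := by omega
  have e7 : i + (x - k) - Y - (x - k) = i - Y := by ring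
  rw [e1, e2, e3, e4, e6, e7, e5] at hs
  unfold kap
  exact hs

/-- The invariant of the sweep. -/
private def inv (C : ℕ) (p e : ℕ → ℤ) (G N aP aM YP YM : ℤ) (t : ℕ) : ℤ :=
  2 * ∑ u ∈ Finset.range t, colval C p e G N aP aM YP YM u
    + pot (lc e 1 t) (lc e (-1) t) (lc p 1 t) (lc p (-1) t) (lc p 1 C) (lc p (-1) C) YP YM

private theorem lc_step_pos (f : ℕ → ℤ) (s : ℤ) (t : ℕ) (h : f t = s) :
    lc f s (t + 1) = lc f s t + 1 := by
  rw [lc_succ, if_pos h]

private theorem lc_step_neg (f : ℕ → ℤ) (s : ℤ) (t : ℕ) (h : f t ≠ s) :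
    lc f s (t + 1) = lc f s t := by
  rw [lc_succ, if_neg h, add_zero]

private theorem inv_step (C : ℕ) (p e : ℕ → ℤ) (hp : IsSign p) (he : IsSign e)
    (G N aP aM YP YM : ℤ) (haP : 0 ≤ aP) (haPG : aP ≤ G) (haM : 0 ≤ aM) (haMG : aM ≤ G)
    (hY : YP + YM = (C : ℤ) + G - 1) (t : ℕ) (ht : t < C) :
    inv C p e G N aP aM YP YM t ≤ inv C p e G N aP aM YP YM (t + 1) := by
  unfold inv
  rw [Finset.sum_range_succ]
  have hiadd := lc_add_sign e he t
  have hkadd := lc_add_sign p hp t
  have hxadd := lc_add_sign p hp C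
  have hkP := lc_mono p 1 t C ht.le
  have hkM := lc_mono p (-1) t C ht.le
  have hiP0 := lc_nonneg e 1 t
  have hiM0 := lc_nonneg e (-1) t
  have hne : (1 : ℤ) ≠ -1 := by decide
  have hne' : (-1 : ℤ) ≠ 1 := by decide
  rcases hp t with hpt | hpt <;> rcases he t with het | het
  · -- both signs are `1`
    have hcol : colval C p e G N aP aM YP YM t = pp (lc e 1 t - YM) - pp (lc p 1 t - YM)
        + kap N aM (lc p (-1) C) YP (lc p 1 t) := by
      unfold colval tcol
      rw [hpt, het, if_pos rfl, sel_one, sel_neg_one, sel_neg_one]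
    rw [lc_step_pos e 1 t het, lc_step_neg e (-1) t (by rw [het]; exact hne),
      lc_step_pos p 1 t hpt, lc_step_neg p (-1) t (by rw [hpt]; exact hne), pot_same_P, hcol]
    have hk := kap_nonneg N aM (lc p (-1) C) YP (lc p 1 t)
    linarith
  · -- `p t = 1`, `e t = -1`
    have hcol : colval C p e G N aP aM YP YM t =
        min (pp (YP - lc e (-1) t - G))
          (pp (YP - lc e (-1) t) - min (aM + (lc p (-1) C - lc p (-1) t)) (pp (N - t)))
        - pp (lc p 1 t - YM) + kap N aM (lc p (-1) C) YP (lc p 1 t) := by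
      unfold colval tcol
      rw [hpt, het, if_neg hne', sel_one, sel_neg_one, sel_neg_one]
    rw [lc_step_neg e 1 t (by rw [het]; exact hne'), lc_step_pos e (-1) t het,
      lc_step_pos p 1 t hpt, lc_step_neg p (-1) t (by rw [hpt]; exact hne), pot_flip_PM, hcol]
    have hc := flip_core G N aM YP YM (lc e (-1) t) (lc e 1 t) (lc p (-1) t) (lc p 1 t)
      (lc p (-1) C) (lc p 1 C) t C haM haMG hiadd hkadd hxadd hY hkM hiP0
    linarith
  · -- `p t = -1`, `e t = 1`
    have hcol : colval C p e G N aP aM YP YM t =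
        min (pp (YM - lc e 1 t - G))
          (pp (YM - lc e 1 t) - min (aP + (lc p 1 C - lc p 1 t)) (pp (N - t)))
        - pp (lc p (-1) t - YP) + kap N aP (lc p 1 C) YM (lc p (-1) t) := by
      unfold colval tcol
      rw [hpt, het, if_neg hne, neg_neg, sel_one, sel_neg_one, sel_one]
    rw [lc_step_pos e 1 t het, lc_step_neg e (-1) t (by rw [het]; exact hne),
      lc_step_neg p 1 t (by rw [hpt]; exact hne'), lc_step_pos p (-1) t hpt, pot_flip_MP, hcol]
    have hc := flip_core G N aP YM YP (lc e 1 t) (lc e (-1) t) (lc p 1 t) (lc p (-1) t)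
      (lc p 1 C) (lc p (-1) C) t C haP haPG (by linarith) (by linarith) (by linarith)
      (by linarith) hkP hiM0
    linarith
  · -- both signs are `-1`
    have hcol : colval C p e G N aP aM YP YM t = pp (lc e (-1) t - YP) - pp (lc p (-1) t - YP)
        + kap N aP (lc p 1 C) YM (lc p (-1) t) := by
      unfold colval tcol
      rw [hpt, het, if_pos rfl, neg_neg, sel_one, sel_neg_one, sel_one]
    rw [lc_step_neg e 1 t (by rw [het]; exact hne'), lc_step_pos e (-1) t het,
      lc_step_neg p 1 t (by rw [hpt]; exact hne'), lc_step_pos p (-1) t hpt, pot_same_M, hcol]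
    have hk := kap_nonneg N aP (lc p 1 C) YM (lc p (-1) t)
    linarith

/-- The sweep lemma: the corrected column terms have a nonnegative sum. -/
theorem sweep (C : ℕ) (p e : ℕ → ℤ) (hp : IsSign p) (he : IsSign e) (G N aP aM YP YM : ℤ)
    (haP : 0 ≤ aP) (haPG : aP ≤ G) (haM : 0 ≤ aM) (haMG : aM ≤ G)
    (hY : YP + YM = (C : ℤ) + G - 1) :
    0 ≤ ∑ t ∈ Finset.range C, colval C p e G N aP aM YP YM t := by
  have hinv : ∀ t : ℕ, t ≤ C → 0 ≤ inv C p e G N aP aM YP YM t := by
    intro t
    induction t with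
    | zero =>
      intro _
      have h0 : ∀ (f : ℕ → ℤ) (s : ℤ), lc f s 0 = 0 := by
        intro f s
        unfold lc
        rw [Finset.range_zero, Finset.sum_empty]
      unfold inv pot
      rw [Finset.range_zero, Finset.sum_empty, h0, h0, h0, h0]
      simp only [zero_add, sub_zero, mul_zero]
      linarith
    | succ t ih =>
      intro ht
      exact le_trans (ih (by omega))
        (inv_step C p e hp he G N aP aM YP YM haP haPG haM haMG hY t (by omega))
  have hC := hinv C le_rfl
  unfold inv pot at hC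
  simp only [add_sub_cancel_right] at hC
  linarith

end Vale.Agent.Lib.P040.TP.Gen.Sw
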