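import Vale.Agent.Lib.P040.TP.Gen.Sw.Sweep
import Vale.Agent.Lib.P040.TP.Gen.Sw.SumCount
import Vale.Agent.Lib.P040.TP.Gen.Sw.KapSum

namespace Vale.Agent.Lib.P040.TP.Gen.Sw

private theorem total_sel_one (a b : ℤ) : sel 1 a b = a := by
  unfold sel
  rw [if_pos rfl]

private theorem total_sel_neg_one (a b : ℤ) : sel (-1) a b = b := by
  unfold sel
  rw [if_neg (by decide)]

/-- The column term split by the sign of `p t`. -/
private theorem total_split (C : ℕ) (p e : ℕ → ℤ) (hp : IsSign p) (G N : ℤ)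
    (aP aM xP xM : ℕ) (YP YM : ℤ)
    (hxP : lc p 1 C = xP) (hxM : lc p (-1) C = xM) (t : ℕ) :
    tcol C p e G N aP aM YP YM t = colval C p e G N aP aM YP YM t
      + ((if p t = 1 then (fun k : ℤ => pp (k - YM)) (lc p 1 t) else 0)
        + (if p t = -1 then (fun k : ℤ => pp (k - YP)) (lc p (-1) t) else 0))
      - ((if p t = 1 then (fun k : ℤ => kap N aM xM YP k) (lc p 1 t) else 0)
        + (if p t = -1 then (fun k : ℤ => kap N aP xP YM k) (lc p (-1) t) else 0)) := by
  unfold colval
  have d1 : ((1 : ℤ) = -1) = False := eq_false (by decide)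
  have d2 : ((-1 : ℤ) = 1) = False := eq_false (by decide)
  rcases hp t with h | h
  · rw [h]
    simp only [total_sel_neg_one, total_sel_one, hxM, d1, if_true, if_false]
    ring
  · rw [h]
    simp only [neg_neg, total_sel_neg_one, total_sel_one, hxP, d2, if_true, if_false]
    ring

/-- Lower bound for the sum of the column terms in terms of the totals. -/
theorem sweep_total (C : ℕ) (p e : ℕ → ℤ) (hp : IsSign p) (he : IsSign e) (G N : ℤ)
    (aP aM xP xM : ℕ) (YP YM : ℤ) (haPG : (aP : ℤ) ≤ G) (haMG : (aM : ℤ) ≤ G)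
    (hY : YP + YM = (C : ℤ) + G - 1) (hYP : -1 ≤ YP) (hYM : -1 ≤ YM)
    (hxP : lc p 1 C = xP) (hxM : lc p (-1) C = xM) :
    RR ((xP : ℤ) - YM) + RR ((xM : ℤ) - YP)
        - 2 * ∑ i ∈ Finset.range aM, pp (N - max YP ((xM : ℤ) + i))
        - 2 * ∑ i ∈ Finset.range aP, pp (N - max YM ((xP : ℤ) + i))
      ≤ 2 * ∑ t ∈ Finset.range C, tcol C p e G N aP aM YP YM t := by
  have hsw := sweep C p e hp he G N aP aM YP YM (Int.natCast_nonneg aP) haPG
    (Int.natCast_nonneg aM) haMG hY
  have hsum : ∑ t ∈ Finset.range C, tcol C p e G N aP aM YP YM t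
      = ∑ t ∈ Finset.range C, colval C p e G N aP aM YP YM t
        + (∑ t ∈ Finset.range C,
            (if p t = 1 then (fun k : ℤ => pp (k - YM)) (lc p 1 t) else 0)
          + ∑ t ∈ Finset.range C,
            (if p t = -1 then (fun k : ℤ => pp (k - YP)) (lc p (-1) t) else 0))
        - (∑ t ∈ Finset.range C,
            (if p t = 1 then (fun k : ℤ => kap N aM xM YP k) (lc p 1 t) else 0)
          + ∑ t ∈ Finset.range C,
            (if p t = -1 then (fun k : ℤ => kap N aP xP YM k) (lc p (-1) t) else 0)) := by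
    rw [← Finset.sum_add_distrib, ← Finset.sum_add_distrib, ← Finset.sum_add_distrib,
      ← Finset.sum_sub_distrib]
    exact Finset.sum_congr rfl (fun t _ => total_split C p e hp G N aP aM xP xM YP YM hxP hxM t)
  have hA1 := sum_by_count C p 1 (fun k : ℤ => pp (k - YM)) xP hxP
  have hA2 := sum_by_count C p (-1) (fun k : ℤ => pp (k - YP)) xM hxM
  have hB1 := sum_by_count C p 1 (fun k : ℤ => kap N aM xM YP k) xP hxP
  have hB2 := sum_by_count C p (-1) (fun k : ℤ => kap N aP xP YM k) xM hxM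
  have hR1 := sum_pp_range xP YM hYM
  have hR2 := sum_pp_range xM YP hYP
  have hK1 := kap_sum_le xP aM N xM YP
  have hK2 := kap_sum_le xM aP N xP YM
  rw [hsum, hA1, hA2, hB1, hB2]
  linarith

end Vale.Agent.Lib.P040.TP.Gen.Sw
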